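import Crest.Agent.R294.Defs

/-!
R294 / Beh: the calculus of two-way block behaviours (definitions in `Defs.lean`).

Main facts: `mid_mul_right` (A3), `mid_mul_left` (A4), `mul_assoc'`, `one_mul'`, `mul_one'`,
monotonicity (`Mid.mono`, `Mid.mono_right`, `Mid.mono_left`, `mul_mono`), mirror image (`rev_mul`,
`Mid_rev`), path constructors and induction (`Mid.exit`, `Mid.cons`, `Mid.trans_refl`, `Mid.rec'`,
`Mid.cases'`, `Mid.last_right`, `Mid.last_left`), words (`wd_append`), the bundled monoid `BehM`.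
-/

set_option autoImplicit false

namespace Crest.Agent.R294

variable {Q : Type*}

/-! ### unfolding -/

theorem sel_true {p q : Beh Q} {x y : DS Q} (hx : x.1 = true) : sel p q x y ↔ q x y := by
  unfold sel; rw [if_pos hx]

theorem sel_false {p q : Beh Q} {x y : DS Q} (hx : x.1 = false) : sel p q x y ↔ p x y := by
  unfold sel; rw [if_neg (by simp [hx])]

theorem mul_true {p q : Beh Q} {x y : DS Q} (hx : x.1 = true) : (p ⊙ q) x y ↔
    (y.1 = false ∧ p x y) ∨ (∃ x1, x1.1 = true ∧ p x x1 ∧ Mid p q x1 y) := by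
  unfold mul
  constructor
  · rintro (⟨_, h⟩ | ⟨h, _⟩)
    · exact h
    · rw [hx] at h; cases h
  · exact fun h => Or.inl ⟨hx, h⟩

theorem mul_false {p q : Beh Q} {x y : DS Q} (hx : x.1 = false) : (p ⊙ q) x y ↔
    (y.1 = true ∧ q x y) ∨ (∃ x1, x1.1 = false ∧ q x x1 ∧ Mid p q x1 y) := by
  unfold mul
  constructor
  · rintro (⟨h, _⟩ | ⟨_, h⟩)
    · rw [hx] at h; cases h
    · exact h
  · exact fun h => Or.inr ⟨hx, h⟩

theorem one_def (x y : DS Q) : (one : Beh Q) x y ↔ x = y := Iff.rfl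

/-- behaviours are equal if they are equivalent -/
theorem beh_ext {p q : Beh Q} (h : ∀ x y, p x y ↔ q x y) : p = q := by
  funext x y; exact propext (h x y)

/-! ### constructors and induction for `Mid` -/

theorem Mid.exit {p q : Beh Q} {x y : DS Q} (h : x.1 = y.1) (h' : sel p q x y) : Mid p q x y :=
  ⟨x, .refl, h, h'⟩

theorem Mid.cons {p q : Beh Q} {x x1 y : DS Q} (h : Refl p q x x1) (h' : Mid p q x1 y) :
    Mid p q x y := by
  obtain ⟨x', h1, h2, h3⟩ := h'
  exact ⟨x', .head h h1, h2, h3⟩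

theorem Mid.trans_refl {p q : Beh Q} {x x1 y : DS Q}
    (h : Relation.ReflTransGen (Refl p q) x x1) (h' : Mid p q x1 y) : Mid p q x y := by
  obtain ⟨x', h1, h2, h3⟩ := h'
  exact ⟨x', h.trans h1, h2, h3⟩

/-- leave on the right at once -/
theorem Mid.outR {p q : Beh Q} {x y : DS Q} (hx : x.1 = true) (hy : y.1 = true) (h : q x y) :
    Mid p q x y := Mid.exit (by rw [hx, hy]) ((sel_true hx).2 h)

/-- leave on the left at once -/
theorem Mid.outL {p q : Beh Q} {x y : DS Q} (hx : x.1 = false) (hy : y.1 = false) (h : p x y) :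
    Mid p q x y := Mid.exit (by rw [hx, hy]) ((sel_false hx).2 h)

/-- bounce on the right block -/
theorem Refl.right {p q : Beh Q} {x y : DS Q} (hx : x.1 = true) (hy : y.1 = false) (h : q x y) :
    Refl p q x y := ⟨by simp [hx, hy], (sel_true hx).2 h⟩

/-- bounce on the left block -/
theorem Refl.left {p q : Beh Q} {x y : DS Q} (hx : x.1 = false) (hy : y.1 = true) (h : p x y) :
    Refl p q x y := ⟨by simp [hx, hy], (sel_false hx).2 h⟩

theorem Refl.elim {p q : Beh Q} {x y : DS Q} (h : Refl p q x y) :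
    (x.1 = true ∧ y.1 = false ∧ q x y) ∨ (x.1 = false ∧ y.1 = true ∧ p x y) := by
  obtain ⟨h1, h2⟩ := h
  cases hx : x.1 with
  | true =>
    left; rw [sel_true hx] at h2
    refine ⟨rfl, ?_, h2⟩
    rw [hx] at h1; cases hy : y.1 with
    | true => exact absurd hy.symm h1
    | false => rfl
  | false =>
    right; rw [sel_false hx] at h2
    refine ⟨rfl, ?_, h2⟩
    rw [hx] at h1; cases hy : y.1 with
    | true => rfl
    | false => exact absurd hy.symm h1

/-- induction principle for `Mid` (first step of the path) -/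
theorem Mid.rec' {p q : Beh Q} {y : DS Q} {C : DS Q → Prop}
    (outR : ∀ x, x.1 = true → y.1 = true → q x y → C x)
    (outL : ∀ x, x.1 = false → y.1 = false → p x y → C x)
    (bR : ∀ x z, x.1 = true → z.1 = false → q x z → Mid p q z y → C z → C x)
    (bL : ∀ x z, x.1 = false → z.1 = true → p x z → Mid p q z y → C z → C x)
    {x : DS Q} (h : Mid p q x y) : C x := by
  obtain ⟨x', h1, h2, h3⟩ := h
  have base : C x' := by
    cases hx : x'.1 with
    | true => rw [sel_true hx] at h3; exact outR x' hx (by rw [← h2, hx]) h3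
    | false => rw [sel_false hx] at h3; exact outL x' hx (by rw [← h2, hx]) h3
  induction h1 using Relation.ReflTransGen.head_induction_on with
  | refl => exact base
  | head hxz hzx' ih =>
    have hm : Mid p q _ y := ⟨x', hzx', h2, h3⟩
    rcases hxz.elim with ⟨a, b, c⟩ | ⟨a, b, c⟩
    · exact bR _ _ a b c hm ih
    · exact bL _ _ a b c hm ih

/-- case distinction on the first step of the path -/
theorem Mid.cases' {p q : Beh Q} {x y : DS Q} (h : Mid p q x y) :
    (x.1 = true ∧ y.1 = true ∧ q x y) ∨ (x.1 = false ∧ y.1 = false ∧ p x y) ∨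
    (∃ z, x.1 = true ∧ z.1 = false ∧ q x z ∧ Mid p q z y) ∨
    (∃ z, x.1 = false ∧ z.1 = true ∧ p x z ∧ Mid p q z y) := by
  refine Mid.rec' (C := fun x => (x.1 = true ∧ y.1 = true ∧ q x y) ∨
    (x.1 = false ∧ y.1 = false ∧ p x y) ∨
    (∃ z, x.1 = true ∧ z.1 = false ∧ q x z ∧ Mid p q z y) ∨
    (∃ z, x.1 = false ∧ z.1 = true ∧ p x z ∧ Mid p q z y)) ?_ ?_ ?_ ?_ h
  · intro x a b c; exact Or.inl ⟨a, b, c⟩
  · intro x a b c; exact Or.inr (Or.inl ⟨a, b, c⟩)
  · intro x z a b c m _; exact Or.inr (Or.inr (Or.inl ⟨z, a, b, c, m⟩))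
  · intro x z a b c m _; exact Or.inr (Or.inr (Or.inr ⟨z, a, b, c, m⟩))

/-- last step of a `Mid` path leaving on the right -/
theorem Mid.last_right {p q : Beh Q} {x y : DS Q} (h : Mid p q x y) (hy : y.1 = true) :
    ∃ x', Relation.ReflTransGen (Refl p q) x x' ∧ x'.1 = true ∧ q x' y := by
  obtain ⟨x', h1, h2, h3⟩ := h
  have hx : x'.1 = true := by rw [h2, hy]
  rw [sel_true hx] at h3
  exact ⟨x', h1, hx, h3⟩

/-- last step of a `Mid` path leaving on the left -/
theorem Mid.last_left {p q : Beh Q} {x y : DS Q} (h : Mid p q x y) (hy : y.1 = false) :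
    ∃ x', Relation.ReflTransGen (Refl p q) x x' ∧ x'.1 = false ∧ p x' y := by
  obtain ⟨x', h1, h2, h3⟩ := h
  have hx : x'.1 = false := by rw [h2, hy]
  rw [sel_false hx] at h3
  exact ⟨x', h1, hx, h3⟩

/-! ### monotonicity -/

/-- only turning moves matter for reflections -/
theorem Refl.mono {p q p' q' : Beh Q} {x y : DS Q}
    (hp : ∀ x y : DS Q, x.1 = false → y.1 = true → p x y → p' x y)
    (hq : ∀ x y : DS Q, x.1 = true → y.1 = false → q x y → q' x y)
    (h : Refl p q x y) : Refl p' q' x y := by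
  rcases h.elim with ⟨a, b, c⟩ | ⟨a, b, c⟩
  · exact Refl.right a b (hq _ _ a b c)
  · exact Refl.left a b (hp _ _ a b c)

theorem Refl.chain_mono {p q p' q' : Beh Q} {x y : DS Q}
    (hp : ∀ x y : DS Q, x.1 = false → y.1 = true → p x y → p' x y)
    (hq : ∀ x y : DS Q, x.1 = true → y.1 = false → q x y → q' x y)
    (h : Relation.ReflTransGen (Refl p q) x y) : Relation.ReflTransGen (Refl p' q') x y :=
  Relation.ReflTransGen.mono (fun _ _ hh => Refl.mono hp hq hh) _ _ h

/-- monotonicity of `Mid`, leaving on the right: the crossings of `p` do not matter -/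
theorem Mid.mono_right {p q p' q' : Beh Q} {x y : DS Q} (hy : y.1 = true)
    (hp : ∀ x y : DS Q, x.1 = false → y.1 = true → p x y → p' x y)
    (hq : ∀ x y : DS Q, x.1 = true → q x y → q' x y)
    (h : Mid p q x y) : Mid p' q' x y := by
  obtain ⟨x', h1, h2, h3⟩ := h.last_right hy
  exact Mid.trans_refl (Refl.chain_mono hp (fun x y a _ c => hq x y a c) h1)
    (Mid.outR h2 hy (hq _ _ h2 h3))

/-- monotonicity of `Mid`, leaving on the left: the crossings of `q` do not matter -/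
theorem Mid.mono_left {p q p' q' : Beh Q} {x y : DS Q} (hy : y.1 = false)
    (hp : ∀ x y : DS Q, x.1 = false → p x y → p' x y)
    (hq : ∀ x y : DS Q, x.1 = true → y.1 = false → q x y → q' x y)
    (h : Mid p q x y) : Mid p' q' x y := by
  obtain ⟨x', h1, h2, h3⟩ := h.last_left hy
  exact Mid.trans_refl (Refl.chain_mono (fun x y a _ c => hp x y a c) hq h1)
    (Mid.outL h2 hy (hp _ _ h2 h3))

/-- monotonicity of `Mid`; only the inner sides of the blocks matter -/
theorem Mid.mono_dir {p q p' q' : Beh Q} {x y : DS Q}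
    (hp : ∀ x y : DS Q, x.1 = false → p x y → p' x y)
    (hq : ∀ x y : DS Q, x.1 = true → q x y → q' x y)
    (h : Mid p q x y) : Mid p' q' x y := by
  cases hy : y.1 with
  | true => exact h.mono_right hy (fun x y a _ c => hp x y a c) hq
  | false => exact h.mono_left hy hp (fun x y a _ c => hq x y a c)

theorem Mid.mono {p p' q q' : Beh Q} (hp : ∀ x y, p x y → p' x y) (hq : ∀ x y, q x y → q' x y)
    {x y : DS Q} (h : Mid p q x y) : Mid p' q' x y :=
  h.mono_dir (fun x y _ c => hp x y c) (fun x y _ c => hq x y c)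

theorem mul_mono {p p' q q' : Beh Q} (hp : ∀ x y, p x y → p' x y) (hq : ∀ x y, q x y → q' x y)
    {x y : DS Q} (h : (p ⊙ q) x y) : (p' ⊙ q') x y := by
  rcases h with ⟨hx, ⟨a, b⟩ | ⟨x1, a, b, c⟩⟩ | ⟨hx, ⟨a, b⟩ | ⟨x1, a, b, c⟩⟩
  · exact Or.inl ⟨hx, Or.inl ⟨a, hp _ _ b⟩⟩
  · exact Or.inl ⟨hx, Or.inr ⟨x1, a, hp _ _ b, c.mono hp hq⟩⟩
  · exact Or.inr ⟨hx, Or.inl ⟨a, hq _ _ b⟩⟩
  · exact Or.inr ⟨hx, Or.inr ⟨x1, a, hq _ _ b, c.mono hp hq⟩⟩

/-- a turn on the right side of `q` is a turn on the right side of `p ⊙ q` -/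
theorem turn_right_mul {p q : Beh Q} {x y : DS Q} (hx : x.1 = false) (hy : y.1 = true)
    (h : q x y) : (p ⊙ q) x y := (mul_false hx).2 (Or.inl ⟨hy, h⟩)

/-- a turn on the left side of `p` is a turn on the left side of `p ⊙ q` -/
theorem turn_left_mul {p q : Beh Q} {x y : DS Q} (hx : x.1 = true) (hy : y.1 = false)
    (h : p x y) : (p ⊙ q) x y := (mul_true hx).2 (Or.inl ⟨hy, h⟩)

/-- enlarging the left block keeps the paths that leave on the right -/
theorem Mid.ext_left (p : Beh Q) {q r : Beh Q} {x y : DS Q} (hy : y.1 = true)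
    (h : Mid q r x y) : Mid (p ⊙ q) r x y :=
  h.mono_right hy (fun _ _ a b c => turn_right_mul a b c) (fun _ _ _ c => c)

/-- enlarging the right block keeps the paths that leave on the left -/
theorem Mid.ext_right {p q : Beh Q} (r : Beh Q) {x y : DS Q} (hy : y.1 = false)
    (h : Mid p q x y) : Mid p (q ⊙ r) x y :=
  h.mono_left hy (fun _ _ _ c => c) (fun _ _ a b c => turn_left_mul a b c)

/-! ### the law (A3) -/

theorem A3_mp {p q r : Beh Q} {x y : DS Q} (h : Mid p (q ⊙ r) x y) :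
    (y.1 = false ∧ Mid p q x y) ∨ ∃ x1, x1.1 = true ∧ Mid p q x x1 ∧ Mid (p ⊙ q) r x1 y := by
  refine Mid.rec' (C := fun x => (y.1 = false ∧ Mid p q x y) ∨
    ∃ x1, x1.1 = true ∧ Mid p q x x1 ∧ Mid (p ⊙ q) r x1 y) ?_ ?_ ?_ ?_ h
  · intro x hx hy hqr
    rcases (mul_true hx).1 hqr with ⟨h0, _⟩ | ⟨x1, h1, h2, h3⟩
    · rw [hy] at h0; cases h0
    · exact Or.inr ⟨x1, h1, Mid.outR hx h1 h2, h3.ext_left p hy⟩
  · intro x hx hy hp
    exact Or.inl ⟨hy, Mid.outL hx hy hp⟩
  · intro x z hx hz hqr _ ih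
    rcases (mul_true hx).1 hqr with ⟨_, h0⟩ | ⟨x1, h1, h2, h3⟩
    · have hb : Refl p q x z := Refl.right hx hz h0
      rcases ih with ⟨a, b⟩ | ⟨x2, a, b, c⟩
      · exact Or.inl ⟨a, Mid.cons hb b⟩
      · exact Or.inr ⟨x2, a, Mid.cons hb b, c⟩
    · refine Or.inr ⟨x1, h1, Mid.outR hx h1 h2, ?_⟩
      obtain ⟨x', c1, c2, c3⟩ := h3.last_left hz
      have c1' : Relation.ReflTransGen (Refl (p ⊙ q) r) x1 x' :=
        Refl.chain_mono (fun _ _ a b c => turn_right_mul a b c) (fun _ _ _ _ c => c) c1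
      rcases ih with ⟨a, b⟩ | ⟨x2, a, b, c⟩
      · exact Mid.trans_refl c1' (Mid.outL c2 a ((mul_false c2).2 (Or.inr ⟨z, hz, c3, b⟩)))
      · exact Mid.trans_refl c1' (Mid.cons
          (Refl.left c2 a ((mul_false c2).2 (Or.inr ⟨z, hz, c3, b⟩))) c)
  · intro x z hx hz hp _ ih
    have hb : Refl p q x z := Refl.left hx hz hp
    rcases ih with ⟨a, b⟩ | ⟨x2, a, b, c⟩
    · exact Or.inl ⟨a, Mid.cons hb b⟩
    · exact Or.inr ⟨x2, a, Mid.cons hb b, c⟩

private theorem A3_aux {p q r : Beh Q} {x y : DS Q} {w : DS Q} (h : Mid (p ⊙ q) r w y) :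
    ∀ x' x1 : DS Q, Relation.ReflTransGen (Refl p (q ⊙ r)) x x' → x'.1 = true → q x' x1 →
      x1.1 = true → Relation.ReflTransGen (Refl q r) x1 w → Mid p (q ⊙ r) x y := by
  refine Mid.rec' (C := fun w => ∀ x' x1 : DS Q, Relation.ReflTransGen (Refl p (q ⊙ r)) x x' →
      x'.1 = true → q x' x1 → x1.1 = true → Relation.ReflTransGen (Refl q r) x1 w →
      Mid p (q ⊙ r) x y) ?_ ?_ ?_ ?_ h
  · intro w hw hy hr x' x1 h1 h2 h3 h4 h5
    exact Mid.trans_refl h1 (Mid.outR h2 hy ((mul_true h2).2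
      (Or.inr ⟨x1, h4, h3, Mid.trans_refl h5 (Mid.outR hw hy hr)⟩)))
  · intro w hw hy hpq x' x1 h1 h2 h3 h4 h5
    rcases (mul_false hw).1 hpq with ⟨a, _⟩ | ⟨z, a, b, c⟩
    · rw [hy] at a; cases a
    · have e : (q ⊙ r) x' z := (mul_true h2).2
        (Or.inr ⟨x1, h4, h3, Mid.trans_refl h5 (Mid.outL hw a b)⟩)
      exact Mid.trans_refl h1 (Mid.cons (Refl.right h2 a e) (c.ext_right r hy))
  · intro w z hw hz hr _ ih x' x1 h1 h2 h3 h4 h5
    exact ih x' x1 h1 h2 h3 h4 (h5.tail (Refl.right hw hz hr))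
  · intro w z hw hz hpq _ ih x' x1 h1 h2 h3 h4 h5
    rcases (mul_false hw).1 hpq with ⟨_, b⟩ | ⟨v, a, b, c⟩
    · exact ih x' x1 h1 h2 h3 h4 (h5.tail (Refl.left hw hz b))
    · have e : (q ⊙ r) x' v := (mul_true h2).2
        (Or.inr ⟨x1, h4, h3, Mid.trans_refl h5 (Mid.outL hw a b)⟩)
      obtain ⟨v', d1, d2, d3⟩ := c.last_right hz
      have d1' : Relation.ReflTransGen (Refl p (q ⊙ r)) v v' :=
        Refl.chain_mono (fun _ _ _ _ c => c) (fun _ _ a b c => turn_left_mul a b c) d1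
      exact ih v' z ((h1.tail (Refl.right h2 a e)).trans d1') d2 d3 hz .refl

theorem A3_mpr {p q r : Beh Q} {x y : DS Q}
    (h : (y.1 = false ∧ Mid p q x y) ∨
      ∃ x1, x1.1 = true ∧ Mid p q x x1 ∧ Mid (p ⊙ q) r x1 y) : Mid p (q ⊙ r) x y := by
  rcases h with ⟨hy, h⟩ | ⟨x1, h1, h2, h3⟩
  · exact h.ext_right r hy
  · obtain ⟨x', c1, c2, c3⟩ := h2.last_right h1
    have c1' : Relation.ReflTransGen (Refl p (q ⊙ r)) x x' :=
      Refl.chain_mono (fun _ _ _ _ c => c) (fun _ _ a b c => turn_left_mul a b c) c1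
    exact A3_aux h3 x' x1 c1' c2 c3 h1 .refl

/-- **(A3)** splitting the right block -/
theorem mid_mul_right (p q r : Beh Q) (x y : DS Q) :
    Mid p (q ⊙ r) x y ↔ (y.1 = false ∧ Mid p q x y) ∨
      ∃ x1, x1.1 = true ∧ Mid p q x x1 ∧ Mid (p ⊙ q) r x1 y :=
  ⟨A3_mp, A3_mpr⟩

/-! ### mirror image -/

theorem flip_flip (x : DS Q) : flip (flip x) = x := by simp [flip]

theorem flip_injective : Function.Injective (flip : DS Q → DS Q) :=
  Function.LeftInverse.injective flip_flip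

theorem flip_fst_true {x : DS Q} : (flip x).1 = true ↔ x.1 = false := by
  cases h : x.1 <;> simp [flip, h]

theorem flip_fst_false {x : DS Q} : (flip x).1 = false ↔ x.1 = true := by
  cases h : x.1 <;> simp [flip, h]


theorem rev_def (p : Beh Q) (x y : DS Q) : rev p x y ↔ p (flip x) (flip y) := Iff.rfl

theorem rev_rev (p : Beh Q) : rev (rev p) = p := by
  funext x y
  unfold rev
  rw [flip_flip, flip_flip]

theorem rev_injective : Function.Injective (rev : Beh Q → Beh Q) :=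
  Function.LeftInverse.injective rev_rev

theorem Refl_rev_of {p q : Beh Q} {x y : DS Q} (h : Refl p q x y) :
    Refl (rev q) (rev p) (flip x) (flip y) := by
  rcases h.elim with ⟨a, b, c⟩ | ⟨a, b, c⟩
  · refine Refl.left (flip_fst_false.2 a) (flip_fst_true.2 b) ?_
    rw [rev_def, flip_flip, flip_flip]; exact c
  · refine Refl.right (flip_fst_true.2 a) (flip_fst_false.2 b) ?_
    rw [rev_def, flip_flip, flip_flip]; exact c

theorem Mid_rev_of {p q : Beh Q} {x y : DS Q} (h : Mid p q x y) :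
    Mid (rev q) (rev p) (flip x) (flip y) := by
  refine Mid.rec' (C := fun x => Mid (rev q) (rev p) (flip x) (flip y)) ?_ ?_ ?_ ?_ h
  · intro x hx hy hq
    exact Mid.outL (flip_fst_false.2 hx) (flip_fst_false.2 hy)
      (by rw [rev_def, flip_flip, flip_flip]; exact hq)
  · intro x hx hy hp
    exact Mid.outR (flip_fst_true.2 hx) (flip_fst_true.2 hy)
      (by rw [rev_def, flip_flip, flip_flip]; exact hp)
  · intro x z hx hz hq _ ih
    exact Mid.cons (Refl_rev_of (Refl.right (p := p) hx hz hq)) ih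
  · intro x z hx hz hp _ ih
    exact Mid.cons (Refl_rev_of (Refl.left (q := q) hx hz hp)) ih

/-- `Mid` and mirror images -/
theorem Mid_rev (p q : Beh Q) (x y : DS Q) :
    Mid (rev p) (rev q) x y ↔ Mid q p (flip x) (flip y) := by
  constructor
  · intro h
    have := Mid_rev_of h
    rwa [rev_rev, rev_rev] at this
  · intro h
    have := Mid_rev_of h
    rwa [flip_flip, flip_flip] at this

theorem rev_mul (p q : Beh Q) : rev (p ⊙ q) = rev q ⊙ rev p := by
  refine beh_ext fun x y => ?_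
  rw [rev_def]
  cases hx : x.1 with
  | true =>
    have hfx : (flip x).1 = false := flip_fst_false.2 hx
    rw [mul_false hfx, mul_true hx]
    constructor
    · rintro (⟨a, b⟩ | ⟨x1, a, b, c⟩)
      · exact Or.inl ⟨flip_fst_true.1 a, b⟩
      · refine Or.inr ⟨flip x1, flip_fst_true.2 a, ?_, ?_⟩
        · rw [rev_def, flip_flip]; exact b
        · rw [Mid_rev, flip_flip]; exact c
    · rintro (⟨a, b⟩ | ⟨x1, a, b, c⟩)
      · exact Or.inl ⟨flip_fst_true.2 a, b⟩
      · exact Or.inr ⟨flip x1, flip_fst_false.2 a, b, (Mid_rev _ _ _ _).1 c⟩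
  | false =>
    have hfx : (flip x).1 = true := flip_fst_true.2 hx
    rw [mul_true hfx, mul_false hx]
    constructor
    · rintro (⟨a, b⟩ | ⟨x1, a, b, c⟩)
      · exact Or.inl ⟨flip_fst_false.1 a, b⟩
      · refine Or.inr ⟨flip x1, flip_fst_false.2 a, ?_, ?_⟩
        · rw [rev_def, flip_flip]; exact b
        · rw [Mid_rev, flip_flip]; exact c
    · rintro (⟨a, b⟩ | ⟨x1, a, b, c⟩)
      · exact Or.inl ⟨flip_fst_false.2 a, b⟩
      · exact Or.inr ⟨flip x1, flip_fst_true.2 a, b, (Mid_rev _ _ _ _).1 c⟩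

theorem rev_one : rev (one : Beh Q) = one := by
  refine beh_ext fun x y => ?_
  rw [rev_def, one_def, one_def]
  exact ⟨fun h => flip_injective h, fun h => by rw [h]⟩

/-- **(A4)** splitting the left block (mirror image of (A3)) -/
theorem mid_mul_left (p q r : Beh Q) (x y : DS Q) :
    Mid (p ⊙ q) r x y ↔ (y.1 = true ∧ Mid q r x y) ∨
      ∃ x1, x1.1 = false ∧ Mid q r x x1 ∧ Mid p (q ⊙ r) x1 y := by
  have key := mid_mul_right (rev r) (rev q) (rev p) (flip x) (flip y)
  rw [← rev_mul, Mid_rev, flip_flip, flip_flip, Mid_rev, flip_flip, flip_flip] at key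
  rw [key]
  constructor
  · rintro (⟨a, b⟩ | ⟨x1, a, b, c⟩)
    · exact Or.inl ⟨flip_fst_false.1 a, b⟩
    · refine Or.inr ⟨flip x1, flip_fst_false.2 a, ?_, ?_⟩
      · rw [Mid_rev, flip_flip] at b; exact b
      · rw [← rev_mul, Mid_rev, flip_flip] at c; exact c
  · rintro (⟨a, b⟩ | ⟨x1, a, b, c⟩)
    · exact Or.inl ⟨flip_fst_false.2 a, b⟩
    · refine Or.inr ⟨flip x1, flip_fst_true.2 a, ?_, ?_⟩
      · rw [Mid_rev, flip_flip, flip_flip]; exact b
      · rw [← rev_mul, Mid_rev, flip_flip, flip_flip]; exact c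

/-! ### monoid laws -/

theorem mul_assoc' (p q r : Beh Q) : p ⊙ q ⊙ r = p ⊙ (q ⊙ r) := by
  refine beh_ext fun x y => ?_
  cases hx : x.1 with
  | true =>
    rw [mul_true (p := p ⊙ q) (q := r) hx, mul_true (p := p) (q := q ⊙ r) hx]
    constructor
    · rintro (⟨a, b⟩ | ⟨x2, a, b, c⟩)
      · rcases (mul_true hx).1 b with ⟨_, b'⟩ | ⟨x1, d, e, f⟩
        · exact Or.inl ⟨a, b'⟩
        · exact Or.inr ⟨x1, d, e, A3_mpr (Or.inl ⟨a, f⟩)⟩
      · rcases (mul_true hx).1 b with ⟨b', _⟩ | ⟨x1, d, e, f⟩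
        · rw [a] at b'; cases b'
        · exact Or.inr ⟨x1, d, e, A3_mpr (Or.inr ⟨x2, a, f, c⟩)⟩
    · rintro (⟨a, b⟩ | ⟨x1, a, b, c⟩)
      · exact Or.inl ⟨a, (mul_true hx).2 (Or.inl ⟨a, b⟩)⟩
      · rcases A3_mp c with ⟨d, e⟩ | ⟨x2, d, e, f⟩
        · exact Or.inl ⟨d, (mul_true hx).2 (Or.inr ⟨x1, a, b, e⟩)⟩
        · exact Or.inr ⟨x2, d, (mul_true hx).2 (Or.inr ⟨x1, a, b, e⟩), f⟩
  | false =>
    rw [mul_false (p := p ⊙ q) (q := r) hx, mul_false (p := p) (q := q ⊙ r) hx]
    constructor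
    · rintro (⟨a, b⟩ | ⟨x1, a, b, c⟩)
      · exact Or.inl ⟨a, (mul_false hx).2 (Or.inl ⟨a, b⟩)⟩
      · rcases (mid_mul_left _ _ _ _ _).1 c with ⟨d, e⟩ | ⟨x2, d, e, f⟩
        · exact Or.inl ⟨d, (mul_false hx).2 (Or.inr ⟨x1, a, b, e⟩)⟩
        · exact Or.inr ⟨x2, d, (mul_false hx).2 (Or.inr ⟨x1, a, b, e⟩), f⟩
    · rintro (⟨a, b⟩ | ⟨x2, a, b, c⟩)
      · rcases (mul_false hx).1 b with ⟨_, b'⟩ | ⟨x1, d, e, f⟩
        · exact Or.inl ⟨a, b'⟩
        · exact Or.inr ⟨x1, d, e, (mid_mul_left _ _ _ _ _).2 (Or.inl ⟨a, f⟩)⟩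
      · rcases (mul_false hx).1 b with ⟨b', _⟩ | ⟨x1, d, e, f⟩
        · rw [a] at b'; cases b'
        · exact Or.inr ⟨x1, d, e, (mid_mul_left _ _ _ _ _).2 (Or.inr ⟨x2, a, f, c⟩)⟩

theorem Mid_one_left_false {p : Beh Q} {x y : DS Q} (hx : x.1 = false) :
    Mid one p x y ↔ x = y := by
  constructor
  · intro h
    rcases h.cases' with ⟨a, _⟩ | ⟨_, _, a⟩ | ⟨z, a, _⟩ | ⟨z, _, b, c, _⟩
    · rw [hx] at a; cases a
    · exact a
    · rw [hx] at a; cases a
    · have : x = z := c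
      rw [← this, hx] at b; cases b
  · rintro rfl
    exact Mid.outL hx hx rfl

theorem Mid_one_left_true {p : Beh Q} {x y : DS Q} (hx : x.1 = true) :
    Mid one p x y ↔ p x y := by
  constructor
  · intro h
    rcases h.cases' with ⟨_, _, a⟩ | ⟨a, _⟩ | ⟨z, _, b, c, d⟩ | ⟨z, a, _⟩
    · exact a
    · rw [hx] at a; cases a
    · have := (Mid_one_left_false b).1 d
      rw [← this]; exact c
    · rw [hx] at a; cases a
  · intro h
    cases hy : y.1 with
    | true => exact Mid.outR hx hy h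
    | false => exact Mid.cons (Refl.right hx hy h) (Mid.outL hy hy rfl)

theorem one_mul' (p : Beh Q) : one ⊙ p = p := by
  refine beh_ext fun x y => ?_
  cases hx : x.1 with
  | true =>
    rw [mul_true hx]
    constructor
    · rintro (⟨a, b⟩ | ⟨x1, _, b, c⟩)
      · have : x = y := b
        rw [← this, hx] at a; cases a
      · have : x = x1 := b
        subst this
        exact (Mid_one_left_true hx).1 c
    · intro h
      exact Or.inr ⟨x, hx, rfl, (Mid_one_left_true hx).2 h⟩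
  | false =>
    rw [mul_false hx]
    constructor
    · rintro (⟨_, b⟩ | ⟨x1, a, b, c⟩)
      · exact b
      · have := (Mid_one_left_false a).1 c
        rw [← this]; exact b
    · intro h
      cases hy : y.1 with
      | true => exact Or.inl ⟨rfl, h⟩
      | false => exact Or.inr ⟨y, hy, h, (Mid_one_left_false hy).2 rfl⟩

theorem mul_one' (p : Beh Q) : p ⊙ one = p := by
  have h := one_mul' (rev p)
  have h2 : rev (p ⊙ one) = rev p := by rw [rev_mul, rev_one, h]
  exact rev_injective h2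

/-! ### words -/

theorem wd_nil {α : Type*} (c : α → Beh Q) : wd c [] = one := rfl

theorem wd_cons {α : Type*} (c : α → Beh Q) (a : α) (w : List α) :
    wd c (a :: w) = c a ⊙ wd c w := rfl

theorem wd_append {α : Type*} (c : α → Beh Q) (u v : List α) :
    wd c (u ++ v) = wd c u ⊙ wd c v := by
  induction u with
  | nil => rw [List.nil_append, wd_nil, one_mul']
  | cons a u ih => rw [List.cons_append, wd_cons, wd_cons, ih, mul_assoc']


/-! ### the bundled monoid -/

/-- behaviours as a monoid (a type synonym, not reducible) -/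
def BehM (Q : Type*) := Beh Q

instance : Monoid (BehM Q) where
  mul p q := (mul p q : Beh Q)
  mul_assoc := mul_assoc'
  one := (one : Beh Q)
  one_mul := one_mul'
  mul_one := mul_one'

instance [Finite Q] : Finite (BehM Q) := by
  unfold BehM; infer_instance


/-- words to behaviours, as a monoid homomorphism -/
def wdHom {α : Type*} (c : α → Beh Q) : FreeMonoid α →* BehM Q where
  toFun w := (wd c w.toList : Beh Q)
  map_one' := rfl
  map_mul' u v := wd_append c u.toList v.toList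

theorem wdHom_apply {α : Type*} (c : α → Beh Q) (w : FreeMonoid α) :
    wdHom c w = (wd c w.toList : Beh Q) := rfl


/-! ### derived facts -/





/-- determinism of behaviours -/
def Det (p : Beh Q) : Prop := ∀ x y z, p x y → p x z → y = z

theorem Det.mid {p q : Beh Q} (hp : Det p) (hq : Det q) {x y z : DS Q}
    (h : Mid p q x y) : Mid p q x z → y = z := by
  refine Mid.rec' (C := fun x => Mid p q x z → y = z) ?_ ?_ ?_ ?_ h
  · intro x hx hy h1 h2
    rcases h2.cases' with ⟨_, _, a⟩ | ⟨a, _⟩ | ⟨w, _, b, c, _⟩ | ⟨w, a, _⟩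
    · exact hq _ _ _ h1 a
    · rw [hx] at a; cases a
    · have := hq _ _ _ h1 c
      rw [← this, hy] at b; cases b
    · rw [hx] at a; cases a
  · intro x hx hy h1 h2
    rcases h2.cases' with ⟨a, _⟩ | ⟨_, _, a⟩ | ⟨w, a, _⟩ | ⟨w, _, b, c, _⟩
    · rw [hx] at a; cases a
    · exact hp _ _ _ h1 a
    · rw [hx] at a; cases a
    · have := hp _ _ _ h1 c
      rw [← this, hy] at b; cases b
  · intro x w hx hw h1 _ ih h2
    rcases h2.cases' with ⟨_, b, a⟩ | ⟨a, _⟩ | ⟨w', _, b, c, d⟩ | ⟨w, a, _⟩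
    · have := hq _ _ _ h1 a
      rw [← this, hw] at b; cases b
    · rw [hx] at a; cases a
    · have := hq _ _ _ h1 c
      subst this
      exact ih d
    · rw [hx] at a; cases a
  · intro x w hx hw h1 _ ih h2
    rcases h2.cases' with ⟨a, _⟩ | ⟨_, b, a⟩ | ⟨w, a, _⟩ | ⟨w', _, b, c, d⟩
    · rw [hx] at a; cases a
    · have := hp _ _ _ h1 a
      rw [← this, hw] at b; cases b
    · rw [hx] at a; cases a
    · have := hp _ _ _ h1 c
      subst this
      exact ih d

theorem Det.mul {p q : Beh Q} (hp : Det p) (hq : Det q) : Det (p ⊙ q) := by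
  intro x y z h1 h2
  cases hx : x.1 with
  | true =>
    rcases (mul_true hx).1 h1 with ⟨a, b⟩ | ⟨x1, a, b, c⟩ <;>
    rcases (mul_true hx).1 h2 with ⟨a', b'⟩ | ⟨x1', a', b', c'⟩
    · exact hp _ _ _ b b'
    · have := hp _ _ _ b b'
      rw [← this, a] at a'; cases a'
    · have := hp _ _ _ b b'
      rw [this, a'] at a; cases a
    · have := hp _ _ _ b b'
      subst this
      exact Det.mid hp hq c c'
  | false =>
    rcases (mul_false hx).1 h1 with ⟨a, b⟩ | ⟨x1, a, b, c⟩ <;>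
    rcases (mul_false hx).1 h2 with ⟨a', b'⟩ | ⟨x1', a', b', c'⟩
    · exact hq _ _ _ b b'
    · have := hq _ _ _ b b'
      rw [← this, a] at a'; cases a'
    · have := hq _ _ _ b b'
      rw [this, a'] at a; cases a
    · have := hq _ _ _ b b'
      subst this
      exact Det.mid hp hq c c'

theorem Det.one : Det (one : Beh Q) := by
  intro x y z h1 h2
  have a : x = y := h1
  have b : x = z := h2
  rw [← a, ← b]

theorem Det.wd {α : Type*} {c : α → Beh Q} (hc : ∀ a, Det (c a)) (w : List α) :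
    Det (wd c w) := by
  induction w with
  | nil => exact Det.one
  | cons a w ih => exact Det.mul (hc a) ih

end Crest.Agent.R294
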