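import Crest.Prelude.Def_TwoWay
import Mathlib
import Crest.Agent.R294.Beh

-- ▼ part R294/Eqns
section

/-!
R294: forces the generation of the equation lemmas of prelude definitions in one common module
(so that no two modules of the import closure generate them independently).
-/
private theorem rz_67dbb6ce4a : type_of% @_root_.Crest.TwoWay.wordRel.eq_def := @_root_.Crest.TwoWay.wordRel.eq_def
private theorem rz_7d30bf2b58 : type_of% @_root_.Crest.TwoWay.wordRel.eq_1 := @_root_.Crest.TwoWay.wordRel.eq_1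
end

-- ▼ part R294/Good
section

/-!
R294: idempotent powers in finite monoids, existence of a good medium `K` (minimal right ideal),
and the final arithmetic.
-/

set_option autoImplicit false

namespace Crest.Agent.R294

/-- every element of a finite monoid has an idempotent positive power. -/
theorem exists_pow_idem {N : Type*} [Monoid N] [Finite N] (x : N) :
    ∃ n, 0 < n ∧ x ^ n * x ^ n = x ^ n := by
  obtain ⟨i, j, hij, hx⟩ : ∃ i j : ℕ, i < j ∧ x ^ i = x ^ j := by
    by_contra hcon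
    push Not at hcon
    have hinj : Function.Injective (fun n : ℕ => x ^ n) := by
      intro a b hab
      rcases lt_trichotomy a b with h | h | h
      · exact absurd hab (hcon a b h)
      · exact h
      · exact absurd hab.symm (hcon b a h)
    exact not_injective_infinite_finite _ hinj
  -- period `d = j - i`
  obtain ⟨d, hd, rfl⟩ : ∃ d, 0 < d ∧ j = i + d := ⟨j - i, by omega, by omega⟩
  have hstep : ∀ m, i ≤ m → x ^ (m + d) = x ^ m := by
    intro m hm
    obtain ⟨k, rfl⟩ := Nat.exists_eq_add_of_le hm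
    have : i + k + d = (i + d) + k := by omega
    rw [this, pow_add, ← hx, ← pow_add]
  have hmul : ∀ t m, i ≤ m → x ^ (m + t * d) = x ^ m := by
    intro t
    induction t with
    | zero => intro m _; simp
    | succ t ih =>
      intro m hm
      have : m + (t + 1) * d = (m + t * d) + d := by ring
      rw [this, hstep _ (by omega), ih m hm]
  refine ⟨(i + 1) * d, Nat.mul_pos (Nat.succ_pos _) hd, ?_⟩
  have hge : i ≤ (i + 1) * d := by nlinarith
  rw [← pow_add]
  exact hmul (i + 1) _ hge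

/-- idempotent powers for a homomorphism into a finite monoid. -/
theorem exists_pow_idem_hom {M N : Type*} [Monoid M] [Monoid N] [Finite N] (φ : M →* N) (z : M) :
    ∃ n, 0 < n ∧ φ (z ^ n) * φ (z ^ n) = φ (z ^ n) := by
  obtain ⟨n, hn, h⟩ := exists_pow_idem (φ z)
  exact ⟨n, hn, by simpa only [map_pow] using h⟩

/-- powers of an element whose image is idempotent. -/
theorem map_pow_idem {M R : Type*} [Monoid M] [Monoid R] (ρ : M →* R) (z : M)
    (h : ρ z * ρ z = ρ z) : ∀ n, 0 < n → ρ (z ^ n) = ρ z := by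
  intro n hn
  induction n with
  | zero => omega
  | succ n ih =>
    rcases Nat.eq_zero_or_pos n with h0 | h0
    · subst h0; simp
    · rw [pow_succ, map_mul, ih h0, h]

/-- **Good medium.**  `K` lies in a minimal right ideal of the set of all `w` with `ρ w = e`. -/
theorem exists_good_hom {M N R : Type*} [Monoid M] [Monoid N] [Finite N] [Monoid R]
    (φ : M →* N) (ρ : M →* R) (e : R) (he : e * e = e) (hex : ∃ m, ρ m = e) :
    ∃ K : M, ρ K = e ∧ φ K * φ K = φ K ∧
      ∀ w, ρ w = e → ∃ w', ρ w' = e ∧ φ K * φ w * φ K * φ w' = φ K := by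
  classical
  let A : M → Set N := fun m => {t | ∃ w, ρ w = e ∧ φ (m * w) = t}
  have hAfin : ∀ m, (A m).Finite := fun m => Set.toFinite _
  have hsub : ∀ m w, ρ w = e → A (m * w) ⊆ A m := by
    rintro m w hw t ⟨v, hv, rfl⟩
    exact ⟨w * v, by rw [map_mul, hw, hv, he], by rw [mul_assoc]⟩
  -- minimise the cardinality of `A m`
  obtain ⟨m0, hm0, hmin⟩ : ∃ m0, ρ m0 = e ∧ ∀ m, ρ m = e → (A m0).ncard ≤ (A m).ncard := by
    have hne : ∃ n, ∃ m, ρ m = e ∧ (A m).ncard = n := by
      obtain ⟨m, hm⟩ := hex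
      exact ⟨_, m, hm, rfl⟩
    obtain ⟨m0, hm0, hc⟩ := Nat.find_spec hne
    refine ⟨m0, hm0, fun m hm => ?_⟩
    rw [hc]
    exact Nat.find_min' hne ⟨m, hm, rfl⟩
  have heq : ∀ w, ρ w = e → A (m0 * w) = A m0 := by
    intro w hw
    exact Set.eq_of_subset_of_ncard_le (hsub m0 w hw)
      (hmin _ (by rw [map_mul, hm0, hw, he])) (hAfin m0)
  obtain ⟨n, hn, hidem⟩ := exists_pow_idem_hom φ m0
  have hKe : ρ (m0 ^ n) = e := by
    rw [map_pow_idem ρ m0 (by rw [hm0, he]) n hn, hm0]
  have hA : ∀ w, ρ w = e → A (m0 ^ n * w) = A m0 := by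
    intro w hw
    obtain ⟨k, rfl⟩ : ∃ k, n = k + 1 := ⟨n - 1, by omega⟩
    rcases Nat.eq_zero_or_pos k with h0 | h0
    · subst h0
      rw [zero_add, pow_one]
      exact heq w hw
    · have : m0 ^ (k + 1) * w = m0 * (m0 ^ k * w) := by rw [pow_succ', mul_assoc]
      rw [this]
      refine heq _ ?_
      rw [map_mul, map_pow_idem ρ m0 (by rw [hm0, he]) k h0, hm0, hw, he]
  refine ⟨m0 ^ n, hKe, hidem, fun w hw => ?_⟩
  have hmem : φ (m0 ^ n) ∈ A m0 := by
    rw [← hA (m0 ^ n) hKe]
    refine ⟨m0 ^ n, hKe, ?_⟩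
    rw [map_mul, map_mul, hidem, hidem]
  rw [← hA (w * m0 ^ n) (by rw [map_mul, hw, hKe, he])] at hmem
  obtain ⟨w', hw', h⟩ := hmem
  refine ⟨w', hw', ?_⟩
  calc φ (m0 ^ n) * φ w * φ (m0 ^ n) * φ w' = φ (m0 ^ n * (w * m0 ^ n) * w') := by
        simp only [map_mul, mul_assoc]
    _ = φ (m0 ^ n) := h



end Crest.Agent.R294
end

-- ▼ part R294/GoodWd
section

/-!
R294: idempotent powers and good media for word behaviours.
-/

set_option autoImplicit false

namespace Crest.Agent.R294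

open Crest.TwoWay

namespace GW

/-! ### relations as a monoid -/

theorem wordRel_app {h : ℕ} (u v : List (Let h)) :
    wordRel (u ++ v) = fun a c => ∃ b, wordRel u a b ∧ wordRel v b c := by
  induction u with
  | nil =>
    funext a c
    simp [wordRel]
  | cons R u ih =>
    funext a c
    simp only [List.cons_append, wordRel, ih]
    apply propext
    constructor
    · rintro ⟨b, hb, b', h1, h2⟩
      exact ⟨b', ⟨b, hb, h1⟩, h2⟩
    · rintro ⟨b', ⟨b, hb, h1⟩, h2⟩
      exact ⟨b, hb, b', h1, h2⟩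

theorem wordRel_let {h : ℕ} (R : Fin h → Fin h → Prop) : wordRel [letter R] = R := by
  funext a c
  simp [wordRel, letter]

/-- relations on `Fin h` -/
def RelM (h : ℕ) : Type := Fin h → Fin h → Prop

instance (h : ℕ) : Monoid (RelM h) where
  mul R S := fun a c => ∃ b, R a b ∧ S b c
  one := fun a b => a = b
  mul_assoc R S T := by
    funext a d
    apply propext
    constructor
    · rintro ⟨c, ⟨b, h1, h2⟩, h3⟩
      exact ⟨b, h1, c, h2, h3⟩
    · rintro ⟨b, h1, c, h2, h3⟩
      exact ⟨c, ⟨b, h1, h2⟩, h3⟩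
  one_mul R := by
    funext a b
    apply propext
    constructor
    · rintro ⟨c, h1, h2⟩
      have h1' : a = c := h1
      rw [h1']; exact h2
    · intro h
      exact ⟨a, rfl, h⟩
  mul_one R := by
    funext a b
    apply propext
    constructor
    · rintro ⟨c, h1, h2⟩
      have h2' : c = b := h2
      rw [← h2']; exact h1
    · intro h
      exact ⟨b, h, rfl⟩

/-- `IdP P` as an element of the relation monoid -/
def idM {h : ℕ} (P : Finset (Fin h)) : RelM h := IdP P

theorem idM_mul_idM {h : ℕ} (P : Finset (Fin h)) : idM P * idM P = idM P := by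
  funext a c
  apply propext
  constructor
  · rintro ⟨b, ⟨rfl, h1⟩, ⟨rfl, h2⟩⟩
    exact ⟨rfl, h1⟩
  · rintro ⟨rfl, h1⟩
    exact ⟨a, ⟨rfl, h1⟩, ⟨rfl, h1⟩⟩

/-- `wordRel` as a homomorphism -/
def rhoHom (h : ℕ) : FreeMonoid (Let h) →* RelM h where
  toFun w := wordRel (FreeMonoid.toList w)
  map_one' := rfl
  map_mul' u v := wordRel_app (FreeMonoid.toList u) (FreeMonoid.toList v)

theorem toList_pow {α : Type*} (w : FreeMonoid α) (n : ℕ) :
    FreeMonoid.toList (w ^ n) = (List.replicate n (FreeMonoid.toList w)).flatten := by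
  induction n with
  | zero => rfl
  | succ n ih =>
    rw [pow_succ', FreeMonoid.toList_mul, ih, List.replicate_succ, List.flatten_cons]

end GW

open GW

/-- powers of a word: idempotent behaviour -/
theorem exists_idem_pow {Q : Type*} [Finite Q] {α : Type*} (c : α → Beh Q) (w : List α) :
    ∃ n, 1 ≤ n ∧ Idem (wd c (List.replicate n w).flatten) := by
  obtain ⟨n, hn, h⟩ := exists_pow_idem_hom (wdHom c) (FreeMonoid.ofList w)
  refine ⟨n, hn, ?_⟩
  have h2 : wdHom c (FreeMonoid.ofList w ^ n) = wd c (List.replicate n w).flatten := by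
    rw [wdHom_apply, toList_pow]; rfl
  rw [h2] at h
  exact h

theorem GW.wordRel_rep {h : ℕ} (P : Finset (Fin h)) (w : List (Let h))
    (hw : wordRel w = IdP P) (n : ℕ) (hn : 1 ≤ n) :
    wordRel (List.replicate n w).flatten = IdP P := by
  have h1 := map_pow_idem (rhoHom h) (FreeMonoid.ofList w)
    (by
      have : rhoHom h (FreeMonoid.ofList w) = idM P := hw
      rw [this, idM_mul_idM]) n hn
  have h2 : rhoHom h (FreeMonoid.ofList w ^ n) = wordRel (List.replicate n w).flatten := by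
    show wordRel (FreeMonoid.toList (FreeMonoid.ofList w ^ n)) = _
    rw [toList_pow]; rfl
  rw [← h2, h1]
  exact hw

/-- an idempotent word over `IdP P` -/
theorem exists_idem_word {Q : Type*} [Finite Q] {h : ℕ} (c : Let h → Beh Q)
    (P : Finset (Fin h)) : ∃ z : List (Let h), wordRel z = IdP P ∧ Idem (wd c z) := by
  obtain ⟨n, hn, hI⟩ := exists_idem_pow c [letter (IdP P)]
  exact ⟨_, wordRel_rep P _ (wordRel_let _) n hn, hI⟩

/-- good media (minimal right ideal) -/
theorem exists_good {Q : Type*} [Finite Q] {h : ℕ} (c : Let h → Beh Q) (P : Finset (Fin h)) :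
    ∃ K : List (Let h), Crest.TwoWay.wordRel K = IdP P ∧ Idem (wd c K) ∧
      ∀ w : List (Let h), Crest.TwoWay.wordRel w = IdP P →
        ∃ w' : List (Let h), Crest.TwoWay.wordRel w' = IdP P ∧
          wd c K ⊙ wd c w ⊙ wd c K ⊙ wd c w' ⊙ wd c K = wd c K := by
  obtain ⟨K, hK, hI, hw⟩ := exists_good_hom (wdHom c) (rhoHom h) (idM P)
    (idM_mul_idM P) ⟨FreeMonoid.ofList [letter (IdP P)], wordRel_let _⟩
  refine ⟨FreeMonoid.toList K, hK, hI, fun w hwP => ?_⟩
  obtain ⟨w', hw', h⟩ := hw (FreeMonoid.ofList w) hwP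
  refine ⟨FreeMonoid.toList w', hw', ?_⟩
  have h' : (wd c (FreeMonoid.toList K) ⊙ wd c w ⊙ wd c (FreeMonoid.toList K) ⊙
      wd c (FreeMonoid.toList w')) = wd c (FreeMonoid.toList K) := h
  rw [h']
  exact hI

end Crest.Agent.R294
end

-- ▼ part R294/Idem
section

/-!
Row 294.  Idempotent behaviours: transitivity, recurrent interpolation, crossing factorisation,
invariance of `Kept`, and the DROP lemma.
-/

set_option autoImplicit false

namespace Crest.Agent.R294

variable {Q : Type*}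

open Relation

/-! ### general facts on `Mid` -/

theorem Mid.extend_left {p q r : Beh Q} {x y : DS Q} (hy : y.1 = true) (h : Mid q r x y) :
    Mid (p ⊙ q) r x y := by
  rw [mid_mul_left]; exact Or.inl ⟨hy, h⟩

theorem Mid.extend_right {p q r : Beh Q} {x y : DS Q} (hy : y.1 = false) (h : Mid p q x y) :
    Mid p (q ⊙ r) x y := by
  rw [mid_mul_right]; exact Or.inl ⟨hy, h⟩

theorem Mid_of_cross {p q : Beh Q} {x y : DS Q} (hx : x.1 = true) (hy : y.1 = true) (h : q x y) :
    Mid p q x y := ⟨x, ReflTransGen.refl, by rw [hx, hy], by simpa [sel, hx] using h⟩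

/-- last crossing decomposition -/
theorem Mid_right {p q : Beh Q} {x y : DS Q} (hy : y.1 = true) :
    Mid p q x y ↔ ∃ x', ReflTransGen (Refl p q) x x' ∧ x'.1 = true ∧ q x' y := by
  constructor
  · rintro ⟨x', h1, h2, h3⟩
    rw [hy] at h2
    exact ⟨x', h1, h2, by simpa [sel, h2] using h3⟩
  · rintro ⟨x', h1, h2, h3⟩
    exact ⟨x', h1, by rw [h2, hy], by simpa [sel, h2] using h3⟩

theorem mul_tt {p q : Beh Q} {x y : DS Q} (hx : x.1 = true) (hy : y.1 = true) :
    (p ⊙ q) x y ↔ ∃ x1 : DS Q, x1.1 = true ∧ p x x1 ∧ Mid p q x1 y := by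
  simp [mul, hx, hy]

theorem mid_mul_right_t {p q r : Beh Q} {x y : DS Q} (hy : y.1 = true) : Mid p (q ⊙ r) x y ↔
    ∃ x1 : DS Q, x1.1 = true ∧ Mid p q x x1 ∧ Mid (p ⊙ q) r x1 y := by
  rw [mid_mul_right]; simp [hy]

/-! ### a finite idempotent relation passes through recurrent points -/

theorem exists_recurrent {A : Type*} [Finite A] (R : A → A → Prop)
    (tr : ∀ x y z, R x y → R y z → R x z) (ip : ∀ x y, R x y → ∃ c, R x c ∧ R c y)
    {x y : A} (h : R x y) : ∃ c, R x c ∧ R c c ∧ R c y := by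
  classical
  by_contra hcon
  push Not at hcon
  let S := {c : A // R x c ∧ R c y}
  have wf : WellFounded (fun a b : S => R a.1 b.1) := by
    have : IsTrans S (fun a b : S => R a.1 b.1) := ⟨fun a b c h1 h2 => tr _ _ _ h1 h2⟩
    have : Std.Irrefl (fun a b : S => R a.1 b.1) := ⟨fun a h1 => hcon a.1 a.2.1 h1 a.2.2⟩
    exact Finite.wellFounded_of_trans_of_irrefl _
  obtain ⟨c, h1, h2⟩ := ip x y h
  obtain ⟨m, -, hm⟩ := wf.has_min (Set.univ : Set S) ⟨⟨c, h1, h2⟩, trivial⟩
  obtain ⟨d, h3, h4⟩ := ip x m.1 m.2.1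
  exact hm ⟨d, h3, tr _ _ _ h4 m.2.2⟩ trivial h4

/-! ### mirror images -/

@[simp] theorem flip_flip' (x : DS Q) : flip (flip x) = x := by
  rcases x with ⟨d, q⟩; simp [flip]

@[simp] theorem flip_fst' (x : DS Q) : (flip x).1 = !x.1 := rfl

theorem Mid_of_rev {p q : Beh Q} {x y : DS Q} (h : Mid (rev q) (rev p) (flip x) (flip y)) :
    Mid p q x y := by
  rw [Mid_rev] at h; simpa using h

theorem Mid_to_rev {p q : Beh Q} {x y : DS Q} (h : Mid p q x y) :
    Mid (rev q) (rev p) (flip x) (flip y) := by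
  rw [Mid_rev]; simpa using h

theorem Idem.rev' {g : Beh Q} (hg : Idem g) : Idem (rev g) := by
  have : rev (g ⊙ g) = rev g := congrArg rev hg
  rw [rev_mul] at this; exact this

/-! ### idempotents -/

section idem

variable {g f : Beh Q}

/-- generalised transitivity -/
theorem Mid.comb_right {g U V : Beh Q} (hU : U ⊙ g = U) (hV : g ⊙ V = V) {x y w : DS Q}
    (hy : y.1 = true) (h1 : Mid g g x y) (h2 : Mid U V y w) : Mid U V x w := by
  have h3 : Mid U g x y := by
    have := Mid.extend_left (p := U) hy h1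
    rwa [hU] at this
  have : Mid U (g ⊙ V) x w := by
    rw [mid_mul_right]
    exact Or.inr ⟨y, hy, h3, by rw [hU]; exact h2⟩
  rwa [hV] at this

theorem Mid.comb {g U V : Beh Q} (hU : U ⊙ g = U) (hV : g ⊙ V = V) {x y w : DS Q}
    (h1 : Mid g g x y) (h2 : Mid U V y w) : Mid U V x w := by
  cases hy : y.1 with
  | true => exact Mid.comb_right hU hV hy h1 h2
  | false =>
    apply Mid_of_rev
    exact Mid.comb_right (g := rev g) (y := flip y) (by rw [← rev_mul, hV])
      (by rw [← rev_mul, hU]) (by simp [hy]) (Mid_to_rev h1) (Mid_to_rev h2)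

theorem E_trans (hg : Idem g) {x y z : DS Q} (h1 : Mid g g x y) (h2 : Mid g g y z) :
    Mid g g x z := Mid.comb hg hg h1 h2

theorem E_dense_right (hg : Idem g) {x w : DS Q} (hw : w.1 = true) (h : Mid g g x w) :
    ∃ c : DS Q, c.1 = true ∧ Mid g g x c ∧ Mid g g c w := by
  have hg' : g ⊙ g = g := hg
  have : Mid g (g ⊙ g) x w := by rwa [hg']
  rw [mid_mul_right_t hw] at this
  obtain ⟨c, h1, h2, h3⟩ := this
  exact ⟨c, h1, h2, by rwa [hg'] at h3⟩

theorem E_rec_right [Finite Q] (hg : Idem g) {x w : DS Q} (hw : w.1 = true)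
    (h : Mid g g x w) : ∃ c : DS Q, c.1 = true ∧ Mid g g x c ∧ Mid g g c c ∧ Mid g g c w := by
  obtain ⟨x1, h1, h2, h3⟩ := E_dense_right hg hw h
  let A := {c : DS Q // c.1 = true}
  obtain ⟨c, h4, h5, h6⟩ := exists_recurrent (A := A) (fun a b => Mid g g a.1 b.1)
    (fun a b c h1 h2 => E_trans hg h1 h2)
    (fun a b h => by
      obtain ⟨c, h1, h2, h3⟩ := E_dense_right hg b.2 h
      exact ⟨⟨c, h1⟩, h2, h3⟩) (x := ⟨x1, h1⟩) (y := ⟨w, hw⟩) h3
  exact ⟨c.1, c.2, E_trans hg h2 h4, h5, h6⟩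

/-- a crossing of `g` to the right factors through a recurrent right-mover -/
theorem cross_right [Finite Q] (hg : Idem g) {q w : DS Q} (hq : q.1 = true)
    (hw : w.1 = true) (h : g q w) :
    ∃ c : DS Q, c.1 = true ∧ g q c ∧ Mid g g c c ∧ Mid g g c w := by
  have hg' : g ⊙ g = g := hg
  have h' : (g ⊙ g) q w := by rwa [hg']
  rw [mul_tt hq hw] at h'
  obtain ⟨x1, h1, h2, h3⟩ := h'
  obtain ⟨c, h4, h5, h6, h7⟩ := E_rec_right hg hw h3
  refine ⟨c, h4, ?_, h6, h7⟩
  have : (g ⊙ g) q c := by rw [mul_tt hq h4]; exact ⟨x1, h1, h2, h5⟩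
  rwa [hg'] at this


/-- `f = g f g` gives `g f = f` and `f g = f`. -/
theorem gf_of (hg : Idem g) (hf : g ⊙ f ⊙ g = f) : g ⊙ f = f ∧ f ⊙ g = f := by
  have hg' : g ⊙ g = g := hg
  constructor
  · conv_lhs => rw [← hf]
    rw [← mul_assoc', ← mul_assoc', hg', hf]
  · conv_lhs => rw [← hf]
    rw [mul_assoc', hg', hf]

end idem

section absorb

variable {g f : Beh Q}

theorem Mid_fg_of_E (hfg : f ⊙ g = f) {x y : DS Q} (hy : y.1 = true) (h : Mid g g x y) :
    Mid f g x y := by
  have := Mid.extend_left (p := f) hy h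
  rwa [hfg] at this

theorem Mid_ff_of_gf (hfg : f ⊙ g = f) {x y : DS Q} (hy : y.1 = true) (h : Mid g f x y) :
    Mid f f x y := by
  have := Mid.extend_left (p := f) hy h
  rwa [hfg] at this

theorem E_gf (hg : Idem g) (hgf : g ⊙ f = f) {x x1 y : DS Q}
    (h : Mid g g x x1) (h2 : Mid g f x1 y) : Mid g f x y := Mid.comb hg hgf h h2

theorem gf_E (hgf : g ⊙ f = f) (hfg : f ⊙ g = f) {x x1 y : DS Q}
    (h1 : x1.1 = true) (hy : y.1 = true)
    (h : Mid g f x x1) (h2 : Mid g g x1 y) : Mid g f x y := by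
  have : Mid g (f ⊙ g) x y := by
    rw [mid_mul_right]; exact Or.inr ⟨x1, h1, h, by rw [hgf]; exact Mid_fg_of_E hfg hy h2⟩
  rwa [hfg] at this


theorem E_ff (hgf : g ⊙ f = f) (hfg : f ⊙ g = f) {x x1 y : DS Q}
    (h : Mid g g x x1) (h2 : Mid f f x1 y) : Mid f f x y := Mid.comb hfg hgf h h2

theorem ff_fg (hf : Idem f) (hfg : f ⊙ g = f) {x x1 y : DS Q}
    (h1 : x1.1 = true) (h : Mid f f x x1) (h2 : Mid f g x1 y) : Mid f f x y := by
  have hf' : f ⊙ f = f := hf
  have : Mid f (f ⊙ g) x y := by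
    rw [mid_mul_right]; exact Or.inr ⟨x1, h1, h, by rw [hf']; exact h2⟩
  rwa [hfg] at this

theorem ff_E (hf : Idem f) (hfg : f ⊙ g = f) {x x1 y : DS Q}
    (h1 : x1.1 = true) (hy : y.1 = true) (h : Mid f f x x1) (h2 : Mid g g x1 y) : Mid f f x y :=
  ff_fg hf hfg h1 h (Mid_fg_of_E hfg hy h2)

/-- every recurrent right-mover of `f` is `f`-equivalent to a recurrent right-mover of `g` -/
theorem exists_grec [Finite Q] (hg : Idem g) (hf : Idem f) (hgf : g ⊙ f = f)
    (hfg : f ⊙ g = f) {u : DS Q} (hu : u.1 = true) (h : Mid f f u u) :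
    ∃ c : DS Q, c.1 = true ∧ Mid g g c c ∧ Mid f f u c ∧ Mid f f c u := by
  have h' : Mid f (g ⊙ f) u u := by rwa [hgf]
  rw [mid_mul_right_t hu] at h'
  obtain ⟨x1, h1, h2, h3⟩ := h'
  rw [hfg] at h3
  rw [Mid_right h1] at h2
  obtain ⟨x', h4, h5, h6⟩ := h2
  obtain ⟨c, h7, h8, h9, h10⟩ := cross_right hg h5 h1 h6
  refine ⟨c, h7, h9, ?_, ?_⟩
  · exact ff_fg hf hfg hu h ((Mid_right h7).2 ⟨x', h4, h5, h8⟩)
  · exact E_ff hgf hfg h10 h3

/-- `a` (a state) is attached to (the `f`-class of) `u`. -/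
def Att (f : Beh Q) (u a : DS Q) : Prop := Mid f f a u ∧ ∀ w, w.1 = true → Mid f f a w → Mid f f u w

/-- last use of the left block: an attached recurrent state -/
theorem exists_second [Finite Q] (hg : Idem g) (hgf : g ⊙ f = f)
    (hfg : f ⊙ g = f) {c : DS Q} (hc : c.1 = true) (h : Mid f f c c) :
    ∃ e : DS Q, e.1 = true ∧ Mid g g e e ∧ Mid g f e c ∧ Att f c e := by
  have h' : Mid f (g ⊙ f) c c := by rwa [hgf]
  rw [Mid_right hc] at h'
  obtain ⟨a0, h1, h2, h3⟩ := h'
  rw [mul_tt h2 hc] at h3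
  obtain ⟨x1, h4, h5, h6⟩ := h3
  obtain ⟨e, h7, h8, h9, h10⟩ := cross_right hg h2 h4 h5
  have hec : Mid g f e c := E_gf hg hgf h10 h6
  refine ⟨e, h7, h9, hec, Mid_ff_of_gf hfg hc hec, ?_⟩
  intro w hw h11
  have : Mid f (g ⊙ f) c w := by
    apply Mid.trans_refl h1
    rw [mid_mul_right_t hw]
    exact ⟨e, h7, Mid_of_cross h2 h7 h8, by rwa [hfg]⟩
  rwa [hgf] at this

end absorb

/-! ### kept, lost, classes -/

theorem Kept_right {g f : Beh Q} {x : DS Q} (hx : x.1 = true) : Kept g f x ↔ Mid g f x x := by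
  simp [Kept, hx]

theorem Kept_left {g f : Beh Q} {x : DS Q} (hx : x.1 = false) : Kept g f x ↔ Mid f g x x := by
  simp [Kept, hx]

theorem Kept_rev {g f : Beh Q} {x : DS Q} : Kept (rev g) (rev f) x ↔ Kept g f (flip x) := by
  rcases x with ⟨d, x⟩
  cases d <;> simp [Kept, Mid_rev, flip]

theorem Lost_rev {g f : Beh Q} {x : DS Q} : x ∈ Lost (rev g) (rev f) ↔ flip x ∈ Lost g f := by
  simp [Lost, Kept_rev, Mid_rev, Rec]

theorem tcls_rev (g : Beh Q) (x : DS Q) : tcls (rev g) x = flip ⁻¹' (tcls g (flip x)) := by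
  ext y
  simp [tcls, Mid_rev]

theorem tcls_eq {g : Beh Q} (hg : Idem g) {x y : DS Q} (hd : y.1 = x.1)
    (h1 : Mid g g x y) (h2 : Mid g g y x) : tcls g x = tcls g y := by
  ext z
  simp only [tcls, Set.mem_ofPred_eq]
  constructor
  · rintro ⟨h3, h4, h5⟩
    exact ⟨h3.trans hd.symm, E_trans hg h2 h4, E_trans hg h5 h1⟩
  · rintro ⟨h3, h4, h5⟩
    exact ⟨h3.trans hd, E_trans hg h1 h4, E_trans hg h5 h2⟩

theorem of_tcls_eq {g : Beh Q} {x y : DS Q} (hx : Mid g g x x)
    (h : tcls g x = tcls g y) : x.1 = y.1 ∧ Mid g g x y ∧ Mid g g y x := by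
  have : x ∈ tcls g y := by rw [← h]; exact ⟨rfl, hx, hx⟩
  exact ⟨this.1, this.2.2, this.2.1⟩

theorem mcls_eq {g : Beh Q} (hg : Idem g) {x y : DS Q}
    (h1 : Mid g g x y) (h2 : Mid g g y x) : mcls g x = mcls g y := by
  ext z
  simp only [mcls, Set.mem_ofPred_eq]
  constructor
  · rintro ⟨h4, h5⟩
    exact ⟨E_trans hg h2 h4, E_trans hg h5 h1⟩
  · rintro ⟨h4, h5⟩
    exact ⟨E_trans hg h1 h4, E_trans hg h5 h2⟩


theorem kept_class_right {g f : Beh Q} (hg : Idem g) (hgf : g ⊙ f = f)
    (hfg : f ⊙ g = f) {x y : DS Q} (hx : x.1 = true) (hy : y.1 = true) (h1 : Mid g g x y)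
    (h2 : Mid g g y x) (h : Kept g f x) : Kept g f y := by
  rw [Kept_right hx] at h
  rw [Kept_right hy]
  exact E_gf hg hgf h2 (gf_E hgf hfg hx hy h h1)

theorem rev_mul3 {g f : Beh Q} (hf : g ⊙ f ⊙ g = f) : rev g ⊙ rev f ⊙ rev g = rev f := by
  rw [mul_assoc', ← rev_mul, ← rev_mul, hf]


theorem kept_mul_right {K p q : Beh Q} (hKp : K ⊙ p = p) (hpK : p ⊙ K = p)
    {x : DS Q} (hx : x.1 = true) (h : Kept K p x) (h' : Kept K q x) : Kept K (p ⊙ q) x := by
  rw [Kept_right hx] at *
  rw [mid_mul_right_t hx]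
  refine ⟨x, hx, h, ?_⟩
  rw [hKp]
  have := Mid.extend_left (p := p) hx h'
  rwa [hpK] at this

theorem kept_mul {K p q : Beh Q} (hp : K ⊙ p ⊙ K = p) (hq : K ⊙ q ⊙ K = q) (hK : Idem K)
    {x : DS Q} (h1 : Kept K p x) (h2 : Kept K q x) : Kept K (p ⊙ q) x := by
  obtain ⟨hKp, hpK⟩ := gf_of hK hp
  obtain ⟨hKq, hqK⟩ := gf_of hK hq
  cases hd : x.1 with
  | true => exact kept_mul_right hKp hpK hd h1 h2
  | false =>
    have := kept_mul_right (K := rev K) (p := rev q) (q := rev p) (x := flip x)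
      (by rw [← rev_mul, hqK]) (by rw [← rev_mul, hKq]) (by simp [hd])
      (Kept_rev.2 (by simpa using h2)) (Kept_rev.2 (by simpa using h1))
    rw [← rev_mul, Kept_rev] at this
    simpa using this

theorem kept_of_kept {K g f : Beh Q} (hK : Idem K) (hg : K ⊙ g ⊙ K = g)
    (hf : g ⊙ f ⊙ g = f) {x : DS Q}
    (hx : Kept K f x) : Kept g f x := by
  obtain ⟨hKg, hgK⟩ := gf_of hK hg
  cases hd : x.1 with
  | true =>
    rw [Kept_right hd] at *
    have := Mid.extend_left (p := g) hd hx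
    rwa [hgK] at this
  | false =>
    rw [Kept_left hd] at *
    have := Mid.extend_right (r := g) hd hx
    rwa [hKg] at this

/-! ### counting -/

theorem count_abs {α β : Type*} (F : Finset α) (G L : Finset β) (hL : L ⊆ G)
    (att : α → β → Prop)
    (disj : ∀ a ∈ F, ∀ a' ∈ F, ∀ c, att a c → att a' c → a = a')
    (H : ∀ a ∈ F, (∃ c ∈ G, c ∉ L ∧ att a c) ∨
      (∃ c ∈ L, ∃ c' ∈ L, c ≠ c' ∧ att a c ∧ att a c')) :
    2 * F.card + L.card ≤ 2 * G.card := by
  classical
  let w : β → ℕ := fun c => if c ∈ L then 1 else 2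
  let S : α → Finset β := fun a => G.filter (att a)
  have h1 : ∀ a ∈ F, 2 ≤ ∑ c ∈ S a, w c := by
    intro a ha
    rcases H a ha with ⟨c, hc, hcL, hac⟩ | ⟨c, hc, c', hc', hne, hac, hac'⟩
    · have : c ∈ S a := Finset.mem_filter.2 ⟨hc, hac⟩
      calc 2 = w c := by simp [w, hcL]
        _ ≤ _ := Finset.single_le_sum (f := w) (fun i _ => Nat.zero_le _) this
    · have hsub : ({c, c'} : Finset β) ⊆ S a := by
        intro d hd
        simp only [Finset.mem_insert, Finset.mem_singleton] at hd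
        rcases hd with rfl | rfl
        · exact Finset.mem_filter.2 ⟨hL hc, hac⟩
        · exact Finset.mem_filter.2 ⟨hL hc', hac'⟩
      calc 2 = ∑ d ∈ ({c, c'} : Finset β), w d := by
            rw [Finset.sum_pair hne]; simp [w, hc, hc']
        _ ≤ _ := Finset.sum_le_sum_of_subset hsub
  have h2 : ∑ a ∈ F, ∑ c ∈ S a, w c = ∑ c ∈ F.biUnion S, w c := by
    rw [Finset.sum_biUnion]
    intro a ha a' ha' hne
    rw [Function.onFun, Finset.disjoint_left]
    intro c hc hc'
    exact hne (disj a ha a' ha' c (Finset.mem_filter.1 hc).2 (Finset.mem_filter.1 hc').2)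
  have h3 : ∑ c ∈ F.biUnion S, w c ≤ ∑ c ∈ G, w c := by
    apply Finset.sum_le_sum_of_subset
    intro c hc
    obtain ⟨a, -, h⟩ := Finset.mem_biUnion.1 hc
    exact (Finset.mem_filter.1 h).1
  have h4 : ∑ c ∈ G, w c + L.card = 2 * G.card := by
    have : L.card = ∑ c ∈ G, (if c ∈ L then 1 else 0) := by
      rw [Finset.sum_ite_mem, Finset.inter_eq_right.2 hL]; simp
    rw [this, ← Finset.sum_add_distrib]
    rw [Finset.sum_congr rfl (g := fun _ => 2)]
    · simp [mul_comm]
    · intro c _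
      by_cases h : c ∈ L <;> simp [w, h]
  have h5 : 2 * F.card ≤ ∑ a ∈ F, ∑ c ∈ S a, w c := by
    calc 2 * F.card = ∑ _a ∈ F, 2 := by simp [mul_comm]
      _ ≤ _ := Finset.sum_le_sum h1
  omega

theorem count_abs_set {α β : Type*} (F : Set α) (G L : Set β) (hF : F.Finite) (hG : G.Finite)
    (hL : L ⊆ G) (att : α → β → Prop)
    (disj : ∀ a ∈ F, ∀ a' ∈ F, ∀ c, att a c → att a' c → a = a')
    (H : ∀ a ∈ F, (∃ c ∈ G, c ∉ L ∧ att a c) ∨
      (∃ c ∈ L, ∃ c' ∈ L, c ≠ c' ∧ att a c ∧ att a c')) :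
    2 * F.ncard + L.ncard ≤ 2 * G.ncard := by
  classical
  have hLf := hG.subset hL
  rw [Set.ncard_eq_toFinset_card _ hF, Set.ncard_eq_toFinset_card _ hG,
    Set.ncard_eq_toFinset_card _ hLf]
  apply count_abs _ _ _ _ att
  · intro a ha a' ha' c
    exact disj a (by simpa using ha) a' (by simpa using ha') c
  · intro a ha
    rcases H a (by simpa using ha) with ⟨c, hc, h⟩ | ⟨c, hc, c', hc', h⟩
    · exact Or.inl ⟨c, by simpa using hc, by simpa using h⟩
    · exact Or.inr ⟨c, by simpa using hc, c', by simpa using hc', h⟩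
  · intro c hc
    simp only [Set.Finite.mem_toFinset] at hc ⊢
    exact hL hc

/-- DROP for right-movers -/
theorem drop_right [Finite Q] {g f : Beh Q} (hg : Idem g) (hf : Idem f)
    (hgfg : g ⊙ f ⊙ g = f) (T0 : Set (DS Q))
    (hT : ∀ x ∈ T0, x.1 = true → Kept g f x) :
    2 * (tcls f '' {x | x.1 = true ∧ Rec f x ∧ Disjoint (tcls f x) T0}).ncard +
      (tcls g '' {x | x.1 = true ∧ x ∈ Lost g f}).ncard ≤
    2 * (tcls g '' {x | x.1 = true ∧ Rec g x ∧ Disjoint (tcls g x) T0}).ncard := by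
  classical
  obtain ⟨hgf, hfg⟩ := gf_of hg hgfg
  apply count_abs_set _ _ _ (Set.toFinite _) (Set.toFinite _) _
    (fun C D => ∃ u a, u.1 = true ∧ a.1 = true ∧ Mid f f u u ∧ Mid g g a a ∧
      C = tcls f u ∧ D = tcls g a ∧ Att f u a)
  · -- disjointness
    rintro _ ⟨u, ⟨hu, hu2, -⟩, rfl⟩ _ ⟨u', ⟨hu', hu2', -⟩, rfl⟩ D
      ⟨v, a, hv, ha, hvv, haa, h1, h2, h3⟩ ⟨v', a', hv', ha', hvv', haa', h1', h2', h3'⟩
    rw [h1, h1']
    obtain ⟨-, e1, e2⟩ := of_tcls_eq haa (h2.symm.trans h2')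
    apply tcls_eq hf (by rw [hv, hv'])
    · exact h3.2 v' hv' (E_ff hgf hfg e1 h3'.1)
    · exact h3'.2 v hv (E_ff hgf hfg e2 h3.1)
  · -- main
    rintro _ ⟨u, ⟨hu, huu, hdis⟩, rfl⟩
    obtain ⟨c, hc, hcc, huc, hcu⟩ := exists_grec hg hf hgf hfg hu huu
    have hcc' : Mid f f c c := E_trans hf hcu huc
    have huc' : tcls f u = tcls f c := tcls_eq hf (by rw [hu, hc]) huc hcu
    -- the `g`-class of a member of the `f`-class is contained in the `f`-class
    have key : ∀ e : DS Q, e.1 = true → Mid f f e c → Mid f f c e → tcls g e ⊆ tcls f u := by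
      intro e he h1 h2 x hx
      obtain ⟨hx1, hx2, hx3⟩ := hx
      have hx1' : x.1 = true := hx1.trans he
      rw [huc']
      refine ⟨by rw [hx1', hc], ?_, ?_⟩
      · exact ff_E hf hfg he hx1' h2 hx2
      · exact E_ff hgf hfg hx3 h1
    -- members of the f-class are attached
    have att : ∀ e : DS Q, Mid f f e c → Mid f f c e → Att f c e :=
      fun e h1 h2 => ⟨h1, fun w hw h3 => E_trans hf h2 h3⟩
    -- a kept member suffices
    have kmem : ∀ e : DS Q, e.1 = true → Mid g g e e → Mid f f e c → Mid f f c e →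
        Kept g f e → ∃ D ∈ tcls g '' {x | x.1 = true ∧ Rec g x ∧ Disjoint (tcls g x) T0},
          D ∉ tcls g '' {x | x.1 = true ∧ x ∈ Lost g f} ∧
          ∃ u_1 a, u_1.1 = true ∧ a.1 = true ∧ Mid f f u_1 u_1 ∧ Mid g g a a ∧
            tcls f u = tcls f u_1 ∧ D = tcls g a ∧ Att f u_1 a := by
      intro e he hee h1 h2 hk
      refine ⟨tcls g e, ⟨e, ⟨he, hee, ?_⟩, rfl⟩, ?_, c, e, hc, he, hcc', hee, huc', rfl, att e h1 h2⟩
      · exact Set.disjoint_of_subset_left (key e he h1 h2) hdis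
      · rintro ⟨x, ⟨hx, hxl⟩, hxe⟩
        obtain ⟨-, e1, e2⟩ := of_tcls_eq hee hxe.symm
        exact hxl.2 (kept_class_right hg hgf hfg he hx e1 e2 hk)
    by_cases hk : Kept g f c
    · exact Or.inl (kmem c hc hcc hcc' hcc' hk)
    obtain ⟨e, he, hee, hec, hatt⟩ := exists_second hg hgf hfg hc hcc'
    by_cases hk' : Kept g f e
    · have hee' : Mid f f e e := Mid_ff_of_gf hfg he ((Kept_right he).1 hk')
      have h1 : Mid f f c e := hatt.2 e he hee'
      exact Or.inl (kmem e he hee hatt.1 h1 hk')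
    · right
      refine ⟨tcls g c, ⟨c, ⟨hc, hcc, hk⟩, rfl⟩, tcls g e, ⟨e, ⟨he, hee, hk'⟩, rfl⟩, ?_,
        ⟨c, c, hc, hc, hcc', hcc, huc', rfl, att c hcc' hcc'⟩,
        ⟨c, e, hc, he, hcc', hee, huc', rfl, hatt⟩⟩
      intro h
      obtain ⟨-, e1, e2⟩ := of_tcls_eq hcc h
      exact hk ((Kept_right hc).2 (E_gf hg hgf e1 hec))
  · -- lost classes are disjoint from T0
    rintro _ ⟨x, ⟨hx, hxx, hxk⟩, rfl⟩
    refine ⟨x, ⟨hx, hxx, ?_⟩, rfl⟩
    rw [Set.disjoint_left]
    rintro y ⟨hy1, hy2, hy3⟩ hyT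
    exact hxk (kept_class_right hg hgf hfg (hy1.trans hx) hx hy3 hy2 (hT y hyT (hy1.trans hx)))

theorem image_tcls_rev (g : Beh Q) (S : Set (DS Q)) :
    tcls (rev g) '' S = (fun C => flip ⁻¹' C) '' (tcls g '' (flip ⁻¹' S)) := by
  ext C
  constructor
  · rintro ⟨x, hx, rfl⟩
    exact ⟨tcls g (flip x), ⟨flip x, by simpa using hx, rfl⟩, (tcls_rev g x).symm⟩
  · rintro ⟨_, ⟨x, hx, rfl⟩, rfl⟩
    exact ⟨flip x, hx, by simp [tcls_rev]⟩

theorem ncard_image_tcls_rev (g : Beh Q) (S : Set (DS Q)) :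
    (tcls (rev g) '' S).ncard = (tcls g '' (flip ⁻¹' S)).ncard := by
  rw [image_tcls_rev]
  apply Set.ncard_image_of_injective
  intro C D h
  have : flip ⁻¹' (flip ⁻¹' C) = flip ⁻¹' (flip ⁻¹' D) := congrArg _ h
  simpa [← Set.preimage_comp, Function.comp_def] using this

/-- DROP for left-movers -/
theorem drop_left [Finite Q] {g f : Beh Q} (hg : Idem g) (hf : Idem f)
    (hgfg : g ⊙ f ⊙ g = f) (T0 : Set (DS Q))
    (hT : ∀ x ∈ T0, x.1 = false → Kept g f x) :
    2 * (tcls f '' {x | x.1 = false ∧ Rec f x ∧ Disjoint (tcls f x) T0}).ncard +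
      (tcls g '' {x | x.1 = false ∧ x ∈ Lost g f}).ncard ≤
    2 * (tcls g '' {x | x.1 = false ∧ Rec g x ∧ Disjoint (tcls g x) T0}).ncard := by
  have h := drop_right (g := rev g) (f := rev f) hg.rev' hf.rev'
    (rev_mul3 hgfg) (flip ⁻¹' T0)
    (fun x hx hx1 => Kept_rev.2 (hT _ hx (by simp [hx1])))
  simp only [ncard_image_tcls_rev] at h
  have e1 : ∀ k : Beh Q, flip ⁻¹' {x | x.1 = true ∧ Rec (rev k) x ∧
      Disjoint (tcls (rev k) x) (flip ⁻¹' T0)} =
      {x | x.1 = false ∧ Rec k x ∧ Disjoint (tcls k x) T0} := by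
    intro k
    ext x
    simp only [Set.mem_preimage, Set.mem_ofPred_eq, Rec, Mid_rev, tcls_rev, flip_flip', flip_fst',
      Bool.not_eq_true']
    rw [Set.disjoint_preimage_iff]
    exact Function.Involutive.surjective flip_flip'
  have e2 : flip ⁻¹' {x | x.1 = true ∧ x ∈ Lost (rev g) (rev f)} =
      {x | x.1 = false ∧ x ∈ Lost g f} := by
    ext x
    simp [Lost_rev]
  rwa [e1, e1, e2] at h

/-- DROP lemma -/
theorem drop [Finite Q] (d : Bool) (T0 : Set (DS Q)) {g f : Beh Q} (hg : Idem g) (hf : Idem f)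
    (hgf : g ⊙ f ⊙ g = f) (hT : ∀ x ∈ T0, x.1 = d → Rec g x ∧ Kept g f x) :
    2 * Psi d T0 f + LostT d g f ≤ 2 * Psi d T0 g := by
  cases d
  · exact drop_left hg hf hgf T0 (fun x hx h => (hT x hx h).2)
  · exact drop_right hg hf hgf T0 (fun x hx h => (hT x hx h).2)

theorem cost_le_lostT [Finite Q] (g f : Beh Q) (hg : Idem g) :
    Cost g f ≤ LostT true g f + LostT false g f := by
  classical
  have h1 : (mcls g '' Lost g f).ncard ≤ (tcls g '' Lost g f).ncard := by
    let F : Set (DS Q) → Set (DS Q) := fun C => if h : C.Nonempty then mcls g h.some else ∅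
    have : mcls g '' Lost g f = F '' (tcls g '' Lost g f) := by
      rw [Set.image_image]
      apply Set.image_congr
      intro x hx
      have hne : (tcls g x).Nonempty := ⟨x, rfl, hx.1, hx.1⟩
      have hs : hne.some ∈ tcls g x := hne.some_mem
      simp only [F, hne, dif_pos]
      exact mcls_eq hg hs.2.1 hs.2.2
    rw [this]
    exact Set.ncard_image_le (Set.toFinite _)
  have h2 : tcls g '' Lost g f = tcls g '' {x | x.1 = true ∧ x ∈ Lost g f} ∪
      tcls g '' {x | x.1 = false ∧ x ∈ Lost g f} := by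
    rw [← Set.image_union]
    congr 1
    ext x
    cases hx : x.1 <;> simp [hx]
  calc Cost g f ≤ (tcls g '' Lost g f).ncard := h1
    _ ≤ _ := by rw [h2]; exact Set.ncard_union_le _ _

end Crest.Agent.R294
end

-- ▼ part R294/Inj
section

/-!
R294 / Inj: the injection lemma `inj` (COST is monotone under changing the medium), the
two-location count `count2`, and `le_of_cost_zero`.

All paths are handled by the two laws `mid_mul_right` (A3) and `mid_mul_left` (A4).
-/

set_option autoImplicit false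

namespace Crest.Agent.R294

variable {Q : Type*}

namespace Inj

theorem bool_cases (x : DS Q) : x.1 = true ∨ x.1 = false := by
  cases h : x.1 <;> simp

theorem kept_true {g f : Beh Q} {x : DS Q} (hx : x.1 = true) : Kept g f x ↔ Mid g f x x := by
  unfold Kept; rw [if_pos hx]

theorem kept_false {g f : Beh Q} {x : DS Q} (hx : x.1 = false) : Kept g f x ↔ Mid f g x x := by
  unfold Kept; rw [if_neg (by rw [hx]; decide)]

/-! introduction forms of A3, A4 -/
theorem A3f {p q r : Beh Q} {x y : DS Q} (hy : y.1 = false) (h : Mid p q x y) : Mid p (q ⊙ r) x y :=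
  (mid_mul_right p q r x y).2 (Or.inl ⟨hy, h⟩)

theorem A3t {p q r : Beh Q} {x x1 y : DS Q} (hx : x1.1 = true) (h : Mid p q x x1)
    (h' : Mid (p ⊙ q) r x1 y) : Mid p (q ⊙ r) x y :=
  (mid_mul_right p q r x y).2 (Or.inr ⟨x1, hx, h, h'⟩)

theorem A4t {p q r : Beh Q} {x y : DS Q} (hy : y.1 = true) (h : Mid q r x y) : Mid (p ⊙ q) r x y :=
  (mid_mul_left p q r x y).2 (Or.inl ⟨hy, h⟩)

theorem A4f {p q r : Beh Q} {x x1 y : DS Q} (hx : x1.1 = false) (h : Mid q r x x1)
    (h' : Mid p (q ⊙ r) x1 y) : Mid (p ⊙ q) r x y :=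
  (mid_mul_left p q r x y).2 (Or.inr ⟨x1, hx, h, h'⟩)

theorem mulTF {p q : Beh Q} {x y : DS Q} (hx : x.1 = true) (hy : y.1 = false) (h : p x y) :
    (p ⊙ q) x y := (mul_true hx).2 (Or.inl ⟨hy, h⟩)

theorem mulT {p q : Beh Q} {x x1 y : DS Q} (hx : x.1 = true) (hx1 : x1.1 = true) (h : p x x1)
    (h' : Mid p q x1 y) : (p ⊙ q) x y := (mul_true hx).2 (Or.inr ⟨x1, hx1, h, h'⟩)

theorem mulFT {p q : Beh Q} {x y : DS Q} (hx : x.1 = false) (hy : y.1 = true) (h : q x y) :
    (p ⊙ q) x y := (mul_false hx).2 (Or.inl ⟨hy, h⟩)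

theorem mulF {p q : Beh Q} {x x1 y : DS Q} (hx : x.1 = false) (hx1 : x1.1 = false) (h : q x x1)
    (h' : Mid p q x1 y) : (p ⊙ q) x y := (mul_false hx).2 (Or.inr ⟨x1, hx1, h, h'⟩)

theorem stepT {p q : Beh Q} {x z y : DS Q} (hx : x.1 = true) (hz : z.1 = false) (h : q x z)
    (h' : Mid p q z y) : Mid p q x y := Mid.cons (Refl.right hx hz h) h'

theorem stepF {p q : Beh Q} {x z y : DS Q} (hx : x.1 = false) (hz : z.1 = true) (h : p x z)
    (h' : Mid p q z y) : Mid p q x y := Mid.cons (Refl.left hx hz h) h'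

/-- absorption: generalised transitivity -/
theorem absorb {g U W : Beh Q} (hU : U ⊙ g = U) (hW : g ⊙ W = W) {c c' y : DS Q}
    (h : Mid g g c c') (h' : Mid U W c' y) : Mid U W c y := by
  rcases bool_cases c' with hc | hc
  · have h1 : Mid U g c c' := by
      have : Mid (U ⊙ g) g c c' := A4t hc h
      rwa [hU] at this
    have h2 : Mid U (g ⊙ W) c y := A3t hc h1 (by rwa [hU])
    rwa [hW] at h2
  · have h1 : Mid g W c c' := by
      have : Mid g (g ⊙ W) c c' := A3f hc h
      rwa [hW] at this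
    have h2 : Mid (U ⊙ g) W c y := A4f hc h1 (by rwa [hW])
    rwa [hU] at h2

theorem E_trans {g : Beh Q} (hg : g ⊙ g = g) {x y z : DS Q} (h : Mid g g x y)
    (h' : Mid g g y z) : Mid g g x z := absorb hg hg h h'

theorem E_denseT {g : Beh Q} (hg : g ⊙ g = g) {x y : DS Q} (hy : y.1 = true)
    (h : Mid g g x y) : ∃ z, z.1 = true ∧ Mid g g x z ∧ Mid g g z y := by
  have h1 : Mid g (g ⊙ g) x y := by rw [hg]; exact h
  rcases (mid_mul_right g g g x y).1 h1 with ⟨h2, _⟩ | ⟨z, hz, h2, h3⟩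
  · rw [hy] at h2; exact absurd h2 (by decide)
  · exact ⟨z, hz, h2, by rwa [hg] at h3⟩

theorem E_denseF {g : Beh Q} (hg : g ⊙ g = g) {x y : DS Q} (hy : y.1 = false)
    (h : Mid g g x y) : ∃ z, z.1 = false ∧ Mid g g x z ∧ Mid g g z y := by
  have h1 : Mid (g ⊙ g) g x y := by rw [hg]; exact h
  rcases (mid_mul_left g g g x y).1 h1 with ⟨h2, _⟩ | ⟨z, hz, h2, h3⟩
  · rw [hy] at h2; exact absurd h2 (by decide)
  · exact ⟨z, hz, h2, by rwa [hg] at h3⟩

/-- recurrent point in a dense set -/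
theorem exists_rec [Finite Q] {g : Beh Q} (hg : g ⊙ g = g) (S : Set (DS Q)) (hS : S.Nonempty)
    (hd : ∀ x ∈ S, ∃ z ∈ S, Mid g g x z) : ∃ d ∈ S, Mid g g d d := by
  classical
  let r : DS Q → DS Q → Prop := fun a b => Mid g g b a ∧ ¬ Mid g g a b
  have hr1 : IsTrans (DS Q) r := ⟨by
    rintro a b c ⟨h1, h2⟩ ⟨h3, h4⟩
    exact ⟨E_trans hg h3 h1, fun h => h4 (E_trans hg h1 h)⟩⟩
  have hr2 : Std.Irrefl r := ⟨fun a h => h.2 h.1⟩
  have wf : WellFounded r := Finite.wellFounded_of_trans_of_irrefl r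
  obtain ⟨d, hd1, hd2⟩ := wf.has_min S hS
  obtain ⟨z, hz1, hz2⟩ := hd d hd1
  have h3 : ¬ r z d := hd2 z hz1
  have h4 : Mid g g z d := by
    by_contra hcon
    exact h3 ⟨hz2, hcon⟩
  exact ⟨d, hd1, E_trans hg hz2 h4⟩

/-- crossing factorization -/
theorem factT [Finite Q] {g : Beh Q} (hg : g ⊙ g = g) {x y : DS Q} (hx : x.1 = true)
    (hy : y.1 = true) (h : g x y) :
    ∃ d, d.1 = true ∧ g x d ∧ Mid g g d d ∧ Mid g g d y := by
  have h1 : (g ⊙ g) x y := by rw [hg]; exact h
  rcases (mul_true hx).1 h1 with ⟨h2, _⟩ | ⟨x1, hx1, h2, h3⟩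
  · rw [hy] at h2; exact absurd h2 (by decide)
  · obtain ⟨d, ⟨hd1, hd2, hd3⟩, hd4⟩ := exists_rec hg {d | d.1 = true ∧ g x d ∧ Mid g g d y}
      ⟨x1, hx1, h2, h3⟩ (by
        rintro a ⟨ha1, ha2, ha3⟩
        obtain ⟨b, hb1, hb2, hb3⟩ := E_denseT hg hy ha3
        refine ⟨b, ⟨hb1, ?_, hb3⟩, hb2⟩
        have h5 : (g ⊙ g) x b := mulT hx ha1 ha2 hb2
        rwa [hg] at h5)
    exact ⟨d, hd1, hd2, hd4, hd3⟩

theorem factF [Finite Q] {g : Beh Q} (hg : g ⊙ g = g) {x y : DS Q} (hx : x.1 = false)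
    (hy : y.1 = false) (h : g x y) :
    ∃ d, d.1 = false ∧ g x d ∧ Mid g g d d ∧ Mid g g d y := by
  have h1 : (g ⊙ g) x y := by rw [hg]; exact h
  rcases (mul_false hx).1 h1 with ⟨h2, _⟩ | ⟨x1, hx1, h2, h3⟩
  · rw [hy] at h2; exact absurd h2 (by decide)
  · obtain ⟨d, ⟨hd1, hd2, hd3⟩, hd4⟩ := exists_rec hg {d | d.1 = false ∧ g x d ∧ Mid g g d y}
      ⟨x1, hx1, h2, h3⟩ (by
        rintro a ⟨ha1, ha2, ha3⟩
        obtain ⟨b, hb1, hb2, hb3⟩ := E_denseF hg hy ha3
        refine ⟨b, ⟨hb1, ?_, hb3⟩, hb2⟩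
        have h5 : (g ⊙ g) x b := mulF hx ha1 ha2 hb2
        rwa [hg] at h5)
    exact ⟨d, hd1, hd2, hd4, hd3⟩

/-! ### the key lemma -/

section Key
variable [Finite Q] {g U W f : Beh Q}

/-- one step of the induction, right moving -/
theorem key_stepT (hg : g ⊙ g = g) (hU : U ⊙ g = U) (hW : g ⊙ W = W)
    (hf1 : g ⊙ f = f) (hf2 : f ⊙ g = f) {x n : DS Q} (hn : n.1 = true)
    (hk : ∀ d, d.1 = true → Mid g g d d → g n d → Mid U W d x → Mid g f d d)
    {y : DS Q} (hWy : W n y)
    (hy : (y.1 = true ∧ y = x) ∨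
      (y.1 = false ∧ Mid U W y x ∧ Mid U (f ⊙ W) y x ∧ Mid (U ⊙ f) W y x)) :
    Mid U (f ⊙ W) n x ∧ Mid (U ⊙ f) W n x := by
  constructor
  · have h1 : (g ⊙ W) n y := by rw [hW]; exact hWy
    rcases (mul_true hn).1 h1 with ⟨h2, h3⟩ | ⟨a, ha, h2, h3⟩
    · -- reflection
      rcases hy with ⟨hy, _⟩ | ⟨_, _, hy2, _⟩
      · rw [hy] at h2; exact absurd h2 (by decide)
      · refine stepT hn h2 ?_ hy2
        apply mulTF hn h2
        rw [← hf1]
        exact mulTF hn h2 h3
    · -- crossing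
      obtain ⟨d, hd1, hd2, hd3, hd4⟩ := factT hg hn ha h2
      have h4 : Mid g W d y := by
        have : Mid g (g ⊙ W) d y := A3t ha hd4 (by rwa [hg])
        rwa [hW] at this
      have h5 : Mid U W d x := by
        rcases hy with ⟨hy, rfl⟩ | ⟨hy, hy1, _, _⟩
        · have : Mid (U ⊙ g) W d y := A4t hy h4
          rwa [hU] at this
        · have : Mid (U ⊙ g) W d x := A4f hy h4 (by rwa [hW])
          rwa [hU] at this
      have h6 : Mid g f d d := hk d hd1 hd3 hd2 h5
      have hUf : U ⊙ f ⊙ g = U ⊙ f := by rw [mul_assoc', hf2]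
      have h7 : Mid (U ⊙ f) W d x := by
        rcases hy with ⟨hy, rfl⟩ | ⟨hy, _, _, hy1⟩
        · have : Mid (U ⊙ f ⊙ g) W d y := A4t hy h4
          rwa [hUf] at this
        · have : Mid (U ⊙ f ⊙ g) W d x := A4f hy h4 (by rwa [hW])
          rwa [hUf] at this
      have h8 : Mid U f d d := by
        have : Mid (U ⊙ g) f d d := A4t hd1 h6
        rwa [hU] at this
      have h9 : Mid U (f ⊙ W) d x := A3t hd1 h8 h7
      have h10 : Mid U (g ⊙ (f ⊙ W)) n x := A3t hd1 (Mid.outR hn hd1 hd2) (by rwa [hU])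
      rwa [← mul_assoc', hf1] at h10
  · rcases hy with ⟨hy, rfl⟩ | ⟨hy, _, _, hy1⟩
    · exact Mid.outR hn hy hWy
    · exact stepT hn hy hWy hy1

/-- one step of the induction, left moving -/
theorem key_stepF (hg : g ⊙ g = g) (hU : U ⊙ g = U) (hW : g ⊙ W = W)
    (hf1 : g ⊙ f = f) (hf2 : f ⊙ g = f) {x n : DS Q} (hn : n.1 = false)
    (hk : ∀ d, d.1 = false → Mid g g d d → g n d → Mid U W d x → Mid f g d d)
    {y : DS Q} (hUy : U n y)
    (hy : (y.1 = false ∧ y = x) ∨
      (y.1 = true ∧ Mid U W y x ∧ Mid U (f ⊙ W) y x ∧ Mid (U ⊙ f) W y x)) :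
    Mid U (f ⊙ W) n x ∧ Mid (U ⊙ f) W n x := by
  constructor
  · rcases hy with ⟨hy, rfl⟩ | ⟨hy, _, hy1, _⟩
    · exact Mid.outL hn hy hUy
    · exact stepF hn hy hUy hy1
  · have h1 : (U ⊙ g) n y := by rw [hU]; exact hUy
    rcases (mul_false hn).1 h1 with ⟨h2, h3⟩ | ⟨a, ha, h2, h3⟩
    · -- reflection
      rcases hy with ⟨hy, _⟩ | ⟨_, _, _, hy2⟩
      · rw [hy] at h2; exact absurd h2 (by decide)
      · refine stepF hn h2 ?_ hy2
        apply mulFT hn h2
        rw [← hf2]
        exact mulFT hn h2 h3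
    · -- crossing
      obtain ⟨d, hd1, hd2, hd3, hd4⟩ := factF hg hn ha h2
      have h4 : Mid U g d y := by
        have : Mid (U ⊙ g) g d y := A4f ha hd4 (by rwa [hg])
        rwa [hU] at this
      have h5 : Mid U W d x := by
        rcases hy with ⟨hy, rfl⟩ | ⟨hy, hy1, _, _⟩
        · have : Mid U (g ⊙ W) d y := A3f hy h4
          rwa [hW] at this
        · have : Mid U (g ⊙ W) d x := A3t hy h4 (by rwa [hU])
          rwa [hW] at this
      have h6 : Mid f g d d := hk d hd1 hd3 hd2 h5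
      have hfW : g ⊙ (f ⊙ W) = f ⊙ W := by rw [← mul_assoc', hf1]
      have h7 : Mid U (f ⊙ W) d x := by
        rcases hy with ⟨hy, rfl⟩ | ⟨hy, _, hy1, _⟩
        · have : Mid U (g ⊙ (f ⊙ W)) d y := A3f hy h4
          rwa [hfW] at this
        · have : Mid U (g ⊙ (f ⊙ W)) d x := A3t hy h4 (by rwa [hU])
          rwa [hfW] at this
      have h8 : Mid f W d d := by
        have : Mid f (g ⊙ W) d d := A3f hd1 h6
        rwa [hW] at this
      have h9 : Mid (U ⊙ f) W d x := A4f hd1 h8 h7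
      have h10 : Mid (U ⊙ f ⊙ g) W n x := A4f hd1 (Mid.outL hn hd1 hd2) (by rwa [hW])
      rwa [mul_assoc', hf2] at h10

/-- The claim, by head induction on the path. -/
theorem key_claim (hg : g ⊙ g = g) (hU : U ⊙ g = U) (hW : g ⊙ W = W)
    (hf1 : g ⊙ f = f) (hf2 : f ⊙ g = f) {x : DS Q} (S : DS Q → Prop)
    (hS : ∀ n n', S n → (∀ y, Mid U W n' y → Mid U W n y) → S n')
    (hk : ∀ d, S d → Mid g g d d → Mid U W d x → Kept g f d) {n : DS Q}
    (h : Mid U W n x) : S n → Mid U (f ⊙ W) n x ∧ Mid (U ⊙ f) W n x := by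
  have hkT : ∀ n, n.1 = true → S n →
      ∀ d, d.1 = true → Mid g g d d → g n d → Mid U W d x → Mid g f d d := by
    intro n hn hSn d hd hdd hnd hdx
    have h1 : S d := by
      apply hS n d hSn
      intro y hy
      have : Mid U (g ⊙ W) n y := A3t hd (Mid.outR hn hd hnd) (by rwa [hU])
      rwa [hW] at this
    exact (kept_true hd).1 (hk d h1 hdd hdx)
  have hkF : ∀ n, n.1 = false → S n →
      ∀ d, d.1 = false → Mid g g d d → g n d → Mid U W d x → Mid f g d d := by
    intro n hn hSn d hd hdd hnd hdx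
    have h1 : S d := by
      apply hS n d hSn
      intro y hy
      have : Mid (U ⊙ g) W n y := A4f hd (Mid.outL hn hd hnd) (by rwa [hW])
      rwa [hU] at this
    exact (kept_false hd).1 (hk d h1 hdd hdx)
  refine Mid.rec' (C := fun n => S n → Mid U (f ⊙ W) n x ∧ Mid (U ⊙ f) W n x) ?_ ?_ ?_ ?_ h
  · intro n hn hx hW1 hSn
    exact key_stepT hg hU hW hf1 hf2 hn (hkT n hn hSn) hW1 (Or.inl ⟨hx, rfl⟩)
  · intro n hn hx hU1 hSn
    exact key_stepF hg hU hW hf1 hf2 hn (hkF n hn hSn) hU1 (Or.inl ⟨hx, rfl⟩)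
  · intro n z hn hz hW1 hm ih hSn
    have hSz : S z := hS n z hSn (fun y hy => stepT hn hz hW1 hy)
    exact key_stepT hg hU hW hf1 hf2 hn (hkT n hn hSn) hW1 (Or.inr ⟨hz, hm, ih hSz⟩)
  · intro n z hn hz hU1 hm ih hSn
    have hSz : S z := hS n z hSn (fun y hy => stepF hn hz hU1 hy)
    exact key_stepF hg hU hW hf1 hf2 hn (hkF n hn hSn) hU1 (Or.inr ⟨hz, hm, ih hSz⟩)

/-- Key lemma. -/
theorem key {K : Beh Q} (hg : g ⊙ g = g) (hU : U ⊙ g = U) (hW : g ⊙ W = W)
    (hf1 : g ⊙ f = f) (hf2 : f ⊙ g = f) (hKU : K ⊙ U = U) (hWK : W ⊙ K = W) (hK : U ⊙ W = K)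
    {x : DS Q} (hx : Mid K K x x)
    (hk : ∀ d, (∀ y, Mid U W d y → Mid K K x y) → Mid g g d d → Mid U W d x → Kept g f d) :
    Kept K (U ⊙ f ⊙ W) x := by
  have claim := fun (n : DS Q) (h : Mid U W n x) =>
    key_claim hg hU hW hf1 hf2 (fun d => ∀ y, Mid U W d y → Mid K K x y)
      (fun n n' h1 h2 y hy => h1 y (h2 y hy)) hk h
  rcases bool_cases x with hx1 | hx1
  · rw [kept_true hx1]
    have h1 : Mid K (U ⊙ W) x x := by rw [hK]; exact hx
    rcases (mid_mul_right K U W x x).1 h1 with ⟨h2, _⟩ | ⟨x1, hx2, h2, h3⟩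
    · rw [hx1] at h2; exact absurd h2 (by decide)
    · rw [hKU] at h3
      have h4 := (claim x1 h3 (by
        intro y hy
        have : Mid K (U ⊙ W) x y := A3t hx2 h2 (by rwa [hKU])
        rwa [hK] at this)).1
      have h5 : Mid K (U ⊙ (f ⊙ W)) x x := A3t hx2 h2 (by rwa [hKU])
      rwa [mul_assoc']
  · rw [kept_false hx1]
    have h1 : Mid (U ⊙ W) K x x := by rw [hK]; exact hx
    rcases (mid_mul_left U W K x x).1 h1 with ⟨h2, _⟩ | ⟨x1, hx2, h2, h3⟩
    · rw [hx1] at h2; exact absurd h2 (by decide)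
    · rw [hWK] at h3
      have h4 := (claim x1 h3 (by
        intro y hy
        have : Mid (U ⊙ W) K x y := A4f hx2 h2 (by rwa [hWK])
        rwa [hK] at this)).2
      exact A4f hx2 h2 (by rwa [hWK])

end Key

theorem mcls_eq {g : Beh Q} (hg : g ⊙ g = g) {x y : DS Q} (h : Mid g g x y) (h' : Mid g g y x) :
    mcls g x = mcls g y := by
  ext z
  constructor
  · rintro ⟨h1, h2⟩
    exact ⟨E_trans hg h' h1, E_trans hg h2 h⟩
  · rintro ⟨h1, h2⟩
    exact ⟨E_trans hg h h1, E_trans hg h2 h'⟩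

theorem of_mcls_eq {g : Beh Q} {x y : DS Q} (hx : Mid g g x x) (h : mcls g x = mcls g y) :
    Mid g g x y ∧ Mid g g y x := by
  have : x ∈ mcls g y := h ▸ (show x ∈ mcls g x from ⟨hx, hx⟩)
  exact ⟨this.2, this.1⟩

/-- comparing cardinalities along an injective relation -/
theorem ncard_le_of_rel {α β : Type*} {S : Set α} {T : Set β} (hT : T.Finite)
    (r : α → β → Prop) (h1 : ∀ s ∈ S, ∃ t ∈ T, r s t)
    (h2 : ∀ s ∈ S, ∀ s' ∈ S, ∀ t ∈ T, r s t → r s' t → s = s') : S.ncard ≤ T.ncard := by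
  classical
  rcases S.eq_empty_or_nonempty with rfl | ⟨s0, hs0⟩
  · simp
  · obtain ⟨t0, ht0, _⟩ := h1 s0 hs0
    have : Nonempty β := ⟨t0⟩
    choose! f hf1 hf2 using h1
    exact Set.ncard_le_ncard_of_injOn f hf1
      (fun s hs s' hs' h => h2 s hs s' hs' (f s) (hf1 s hs) (hf2 s hs) (h ▸ hf2 s' hs')) hT

theorem fix_left {z X : Beh Q} (hz : z ⊙ z = z) (hX : z ⊙ X ⊙ z = X) : z ⊙ X = X := by
  conv_lhs => rw [← hX]
  rw [← mul_assoc', ← mul_assoc', hz, hX]

theorem fix_right {z X : Beh Q} (hz : z ⊙ z = z) (hX : z ⊙ X ⊙ z = X) : X ⊙ z = X := by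
  conv_lhs => rw [← hX]
  rw [mul_assoc', hz, hX]

/-- The injection, family version. -/
theorem inj_family [Finite Q] {K g U W : Beh Q} (hKK : K ⊙ K = K) (hg : g ⊙ g = g)
    (hKU : K ⊙ U = U) (hU : U ⊙ g = U) (hW : g ⊙ W = W) (hWK : W ⊙ K = W) (hK : U ⊙ W = K)
    (F : Set (Beh Q)) (hF : ∀ f ∈ F, g ⊙ f ⊙ g = f) :
    (mcls K '' {x | Rec K x ∧ ∃ f ∈ F, ¬ Kept K (U ⊙ f ⊙ W) x}).ncard ≤
      (mcls g '' {c | Rec g c ∧ ∃ f ∈ F, ¬ Kept g f c}).ncard := by
  classical
  have key1 : ∀ x, Mid K K x x → (∃ f ∈ F, ¬ Kept K (U ⊙ f ⊙ W) x) →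
      ∃ c, Mid g g c c ∧ (∃ f ∈ F, ¬ Kept g f c) ∧ (∀ y, Mid U W c y → Mid K K x y) ∧
        Mid U W c x := by
    intro x hx ⟨f, hf, hnk⟩
    by_contra hcon
    push Not at hcon
    apply hnk
    apply key hg hU hW (fix_left hg (hF f hf)) (fix_right hg (hF f hf)) hKU hWK hK hx
    intro d hd hdd hdx
    by_contra hnk'
    exact hcon d hdd ⟨f, hf, hnk'⟩ hd hdx
  refine ncard_le_of_rel (Set.toFinite _)
    (fun s t => ∃ x c, mcls K x = s ∧ mcls g c = t ∧ Mid g g c c ∧
      (∀ y, Mid U W c y → Mid K K x y) ∧ Mid U W c x) ?_ ?_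
  · rintro s ⟨x, ⟨hx1, hx2⟩, rfl⟩
    obtain ⟨c, h1, h2, h3, h4⟩ := key1 x hx1 hx2
    exact ⟨mcls g c, ⟨c, ⟨h1, h2⟩, rfl⟩, x, c, rfl, rfl, h1, h3, h4⟩
  · rintro s - s' - t - ⟨x, c, rfl, hc, h1, h2, h3⟩ ⟨x', c', rfl, hc', h1', h2', h3'⟩
    obtain ⟨h4, h5⟩ := of_mcls_eq h1 (hc.trans hc'.symm)
    exact mcls_eq hKK (h2 _ (absorb hU hW h4 h3')) (h2' _ (absorb hU hW h5 h3))

theorem kept_mul {z X Y : Beh Q} (hXr : X ⊙ z = X) (hYl : z ⊙ Y = Y)
    (hXl : z ⊙ X = X) (hYr : Y ⊙ z = Y)
    {c : DS Q} (h1 : Kept z X c) (h2 : Kept z Y c) : Kept z (X ⊙ Y) c := by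
  rcases bool_cases c with hc | hc
  · rw [kept_true hc] at *
    refine A3t hc h1 ?_
    rw [hXl]
    have : Mid (X ⊙ z) Y c c := A4t hc h2
    rwa [hXr] at this
  · rw [kept_false hc] at *
    refine A4f hc h2 ?_
    rw [hYr]
    have : Mid X (z ⊙ Y) c c := A3f hc h1
    rwa [hYl] at this

theorem kept_mul' {z X Y : Beh Q} (hz : z ⊙ z = z) (hX : z ⊙ X ⊙ z = X) (hY : z ⊙ Y ⊙ z = Y)
    {c : DS Q} (h1 : Kept z X c) (h2 : Kept z Y c) : Kept z (X ⊙ Y) c :=
  kept_mul (fix_right hz hX) (fix_left hz hY) (fix_left hz hX) (fix_right hz hY) h1 h2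

theorem Lost_mul_subset {z X Y : Beh Q} (hz : z ⊙ z = z) (hX : z ⊙ X ⊙ z = X)
    (hY : z ⊙ Y ⊙ z = Y) : Lost z (X ⊙ Y) ⊆ Lost z X ∪ Lost z Y := by
  rintro c ⟨h1, h2⟩
  by_contra hcon
  apply h2
  apply kept_mul' hz hX hY
  · by_contra h; exact hcon (Or.inl ⟨h1, h⟩)
  · by_contra h; exact hcon (Or.inr ⟨h1, h⟩)

theorem ncard_iUnion_le_sum {α ι : Type*} [Fintype ι] (S : ι → Set α) :
    (⋃ i, S i).ncard ≤ ∑ i, (S i).ncard := by
  have := Finset.set_ncard_biUnion_le Finset.univ S
  simpa using this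

end Inj

open Inj

/-- INJ: the cost is not increased by changing the medium. -/
theorem inj [Finite Q] {K g U V f : Beh Q} (hK : Idem K) (hg : Idem g)
    (hKU : K ⊙ U = U) (hUg : U ⊙ g = U) (hgV : g ⊙ V = V) (hVK : V ⊙ K = V)
    (hUV : U ⊙ V = K) (hf : g ⊙ f ⊙ g = f) : Cost K (U ⊙ f ⊙ V) ≤ Cost g f := by
  have h := inj_family hK hg hKU hUg hgV hVK hUV {f} (by rintro f' rfl; exact hf)
  simpa [Cost, Lost] using h

/-- two-location count -/
theorem count2 [Finite Q] {ι κ : Type*} [Fintype ι] [Fintype κ] {K z : Beh Q}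
    (hK : Idem K) (hz : Idem z) (hKz : K ⊙ z = K) (hzK : z ⊙ K = K)
    (X : ι → Beh Q) (Y : κ → Beh Q) (hX : ∀ i, z ⊙ X i ⊙ z = X i) (hY : ∀ j, z ⊙ Y j ⊙ z = Y j) :
    (mcls K '' {x | Rec K x ∧ ∃ i j, ¬ Kept K (K ⊙ X i ⊙ Y j ⊙ K) x}).ncard ≤
      ∑ i, Cost z (X i) + ∑ j, Cost z (Y j) := by
  classical
  have h1 := inj_family (g := z) (K := K) (U := K) (W := K) hK hz hK hKz hzK hK hK
    {f | ∃ i j, f = X i ⊙ Y j} (by
      rintro f ⟨i, j, rfl⟩
      rw [← mul_assoc', fix_left hz (hX i), mul_assoc', fix_right hz (hY j)])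
  have h2 : {x | Rec K x ∧ ∃ f ∈ {f | ∃ i j, f = X i ⊙ Y j}, ¬ Kept K (K ⊙ f ⊙ K) x} =
      {x | Rec K x ∧ ∃ i j, ¬ Kept K (K ⊙ X i ⊙ Y j ⊙ K) x} := by
    ext x
    constructor
    · rintro ⟨hx, f, ⟨i, j, rfl⟩, hn⟩
      exact ⟨hx, i, j, by rwa [← mul_assoc'] at hn⟩
    · rintro ⟨hx, i, j, hn⟩
      exact ⟨hx, _, ⟨i, j, rfl⟩, by rwa [← mul_assoc']⟩
  rw [h2] at h1
  refine h1.trans ?_
  have h3 : mcls z '' {c | Rec z c ∧ ∃ f ∈ {f | ∃ i j, f = X i ⊙ Y j}, ¬ Kept z f c} ⊆
      (⋃ i, mcls z '' Lost z (X i)) ∪ (⋃ j, mcls z '' Lost z (Y j)) := by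
    rintro s ⟨c, ⟨hc, f, ⟨i, j, rfl⟩, hn⟩, rfl⟩
    rcases Lost_mul_subset hz (hX i) (hY j) ⟨hc, hn⟩ with h | h
    · exact Or.inl (Set.mem_iUnion.2 ⟨i, c, h, rfl⟩)
    · exact Or.inr (Set.mem_iUnion.2 ⟨j, c, h, rfl⟩)
  refine (Set.ncard_le_ncard h3 (Set.toFinite _)).trans ?_
  refine (Set.ncard_union_le _ _).trans ?_
  exact Nat.add_le_add (ncard_iUnion_le_sum _) (ncard_iUnion_le_sum _)

/-- the potential is bounded by the number of bad classes -/
theorem psi_le_bad [Finite Q] (d : Bool) {K : Beh Q} (_hK : Idem K) (T0 : Set (DS Q)) :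
    Psi d T0 K ≤ (mcls K '' {x | Rec K x ∧ x ∉ T0}).ncard := by
  unfold Psi
  refine ncard_le_of_rel (Set.toFinite _)
    (fun s t => ∃ x, x.1 = d ∧ Rec K x ∧ tcls K x = s ∧ mcls K x = t) ?_ ?_
  · rintro s ⟨x, ⟨hx1, hx2, hx3⟩, rfl⟩
    have hxm : x ∈ tcls K x := ⟨rfl, hx2, hx2⟩
    exact ⟨mcls K x, ⟨x, ⟨hx2, fun h => Set.disjoint_left.1 hx3 hxm h⟩, rfl⟩,
      x, hx1, hx2, rfl, rfl⟩
  · rintro s - s' - t - ⟨x, h1, h2, rfl, h3⟩ ⟨x', h1', h2', rfl, h3'⟩
    have h4 : ∀ y, y ∈ mcls K x ↔ y ∈ mcls K x' := by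
      intro y; rw [h3, h3']
    ext y
    constructor
    · rintro ⟨a, b⟩
      exact ⟨by rw [a, h1, h1'], (h4 y).1 b⟩
    · rintro ⟨a, b⟩
      exact ⟨by rw [a, h1, h1'], (h4 y).2 b⟩

/-- BASE: nothing lost implies that `X` can do everything that `z` does. -/
theorem le_of_cost_zero [Finite Q] {z X : Beh Q} (hz : Idem z) (hX : z ⊙ X ⊙ z = X)
    (h : Cost z X = 0) : ∀ x y, z x y → X x y := by
  intro x y h
  rename_i h0
  have hL : Lost z X = ∅ := by
    unfold Cost at h0
    rw [Set.ncard_eq_zero (Set.toFinite _)] at h0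
    simpa using h0
  have hz' : z ⊙ z = z := hz
  have hl := fix_left hz' hX
  have hr := fix_right hz' hX
  have hk : ∀ d, Mid z z d d → Kept z X d := by
    intro d hd
    by_contra hcon
    have : d ∈ Lost z X := ⟨hd, hcon⟩
    rw [hL] at this
    exact this
  rcases bool_cases x with hx | hx <;> rcases bool_cases y with hy | hy
  · obtain ⟨d, hd1, hd2, hd3, hd4⟩ := factT hz' hx hy h
    have h1 := (kept_true hd1).1 (hk d hd3)
    have h2 : Mid X z d y := by
      have : Mid (X ⊙ z) z d y := A4t hy hd4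
      rwa [hr] at this
    have h3 : Mid z X d y := by
      have : Mid z (X ⊙ z) d y := A3t hd1 h1 (by rwa [hl])
      rwa [hr] at this
    have h4 : (z ⊙ X) x y := mulT hx hd1 hd2 h3
    rwa [hl] at h4
  · have : (z ⊙ X) x y := mulTF hx hy h
    rwa [hl] at this
  · have : (X ⊙ z) x y := mulFT hx hy h
    rwa [hr] at this
  · obtain ⟨d, hd1, hd2, hd3, hd4⟩ := factF hz' hx hy h
    have h1 := (kept_false hd1).1 (hk d hd3)
    have h2 : Mid z X d y := by
      have : Mid z (z ⊙ X) d y := A3f hy (by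
        exact hd4)
      rwa [hl] at this
    have h3 : Mid X z d y := by
      have : Mid (z ⊙ X) z d y := A4f hd1 h1 (by rwa [hr])
      rwa [hl] at this
    have h4 : (X ⊙ z) x y := mulF hx hd1 hd2 h3
    rwa [hr] at h4


end Crest.Agent.R294
end

-- ▼ part R294/Main
section

set_option autoImplicit false

/-!
R294, main step: relation level, bipartite chain, `claim_base`, `claim_step`.
-/

namespace Crest.Agent.R294

open Crest.TwoWay


section Rel

variable {h : ℕ}

theorem wordRel_append (u v : List (Let h)) (a c : Fin h) :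
    wordRel (u ++ v) a c ↔ ∃ b, wordRel u a b ∧ wordRel v b c := by
  induction u generalizing a with
  | nil => simp [wordRel]
  | cons R u ih =>
    simp only [List.cons_append, wordRel, ih]
    constructor
    · rintro ⟨b, h1, b', h2, h3⟩; exact ⟨b', ⟨b, h1, h2⟩, h3⟩
    · rintro ⟨b', ⟨b, h1, h2⟩, h3⟩; exact ⟨b, h1, b', h2, h3⟩

theorem wordRel_letter (R : Fin h → Fin h → Prop) (a c : Fin h) :
    wordRel [letter R] a c ↔ R a c := by
  simp [wordRel, letter]

theorem wordRel_replicate (w : List (Let h)) (r : Fin h → Fin h → Prop)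
    (hx : ∀ a c, wordRel w a c ↔ r a c) (hr : ∀ a c, (∃ b, r a b ∧ r b c) ↔ r a c) (n : ℕ)
    (hn : 1 ≤ n) : ∀ a c, wordRel (List.replicate n w).flatten a c ↔ r a c := by
  obtain ⟨n, rfl⟩ : ∃ k, n = k + 1 := ⟨n - 1, by omega⟩
  clear hn
  induction n with
  | zero => simpa using hx
  | succ n ih =>
    intro a c
    rw [List.replicate_succ, List.flatten_cons, wordRel_append, ← hr a c]
    simp only [ih, hx]

theorem IdP_idem (P : Finset (Fin h)) (a c : Fin h) :
    (∃ b, IdP P a b ∧ IdP P b c) ↔ IdP P a c := by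
  unfold IdP
  constructor
  · rintro ⟨b, ⟨rfl, h1⟩, rfl, h2⟩; exact ⟨rfl, h1⟩
  · rintro ⟨rfl, h1⟩; exact ⟨a, ⟨rfl, h1⟩, rfl, h1⟩

/-- the relation of the chain elements -/
def relA (P1 : Finset (Fin h)) {n : ℕ} (β γ : Fin n → Fin h) (A : Finset (Fin n × Fin n)) :
    Fin h → Fin h → Prop :=
  fun a d => (a = d ∧ a ∈ P1) ∨ ∃ q ∈ A, a = β q.1 ∧ d = γ q.2

theorem relA_trans {P1 : Finset (Fin h)} {n : ℕ} {β γ : Fin n → Fin h}
    (hβ : ∀ i, β i ∈ P1) (hβγ : ∀ i j, β i ≠ γ j)
    (A : Finset (Fin n × Fin n)) (a c : Fin h) :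
    (∃ b, relA P1 β γ A a b ∧ relA P1 β γ A b c) ↔ relA P1 β γ A a c := by
  constructor
  · rintro ⟨b, (⟨rfl, h1⟩ | ⟨q, hq, rfl, rfl⟩), (⟨rfl, h2⟩ | ⟨q', hq', h3, rfl⟩)⟩
    · exact Or.inl ⟨rfl, h1⟩
    · exact Or.inr ⟨q', hq', h3, rfl⟩
    · exact Or.inr ⟨q, hq, rfl, rfl⟩
    · exact absurd h3.symm (hβγ _ _)
  · rintro (⟨rfl, h1⟩ | ⟨q, hq, rfl, rfl⟩)
    · exact ⟨a, Or.inl ⟨rfl, h1⟩, Or.inl ⟨rfl, h1⟩⟩
    · exact ⟨β q.1, Or.inl ⟨rfl, hβ _⟩, Or.inr ⟨q, hq, rfl, rfl⟩⟩

/-- splitting of `P` -/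
theorem split_points (P : Finset (Fin h)) (p n : ℕ) (hP : P.card = p + (2 * n + 1)) :
    ∃ (P0 : Finset (Fin h)) (c : Fin h) (β γ : Fin n → Fin h), P0.card = p ∧ P0 ⊆ P ∧ c ∈ P ∧
      c ∉ P0 ∧ (∀ i, β i ∈ P) ∧ (∀ i, γ i ∈ P) ∧ (∀ i, β i ∉ P0) ∧ (∀ i, γ i ∉ P0) ∧
      (∀ i, β i ≠ c) ∧ (∀ i, γ i ≠ c) ∧ (∀ i j, β i ≠ γ j) ∧ Function.Injective β ∧
      Function.Injective γ := by
  let e := P.orderEmbOfFin hP
  have he : ∀ i, e i ∈ P := fun i => Finset.orderEmbOfFin_mem P hP i
  have hinj : ∀ i j, e i = e j → i = j := fun i j hij => e.injective hij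
  let P0 : Finset (Fin h) := Finset.univ.image (fun i : Fin p => e ⟨i.val, by omega⟩)
  have hP0 : ∀ k : Fin (p + (2 * n + 1)), p ≤ k.val → e k ∉ P0 := by
    intro k hk hx
    simp only [P0, Finset.mem_image, Finset.mem_univ, true_and] at hx
    obtain ⟨i, hi⟩ := hx
    have := congrArg Fin.val (hinj _ _ hi)
    simp only at this
    omega
  refine ⟨P0, e ⟨p, by omega⟩, fun i => e ⟨p + 1 + i.val, by omega⟩,
    fun i => e ⟨p + 1 + n + i.val, by omega⟩, ?_, ?_, he _, ?_, fun i => he _, fun i => he _,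
    ?_, ?_, ?_, ?_, ?_, ?_, ?_⟩
  · rw [Finset.card_image_of_injective]
    · simp
    · intro i j hij
      have := hinj _ _ hij
      simp only [Fin.mk.injEq] at this
      exact Fin.ext this
  · intro x hx
    simp only [P0, Finset.mem_image, Finset.mem_univ, true_and] at hx
    obtain ⟨i, rfl⟩ := hx
    exact he _
  · exact hP0 _ (le_refl _)
  · intro k; exact hP0 _ (by simp only; omega)
  · intro k; exact hP0 _ (by simp only; omega)
  · intro i hi
    have := congrArg Fin.val (hinj _ _ hi)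
    simp only at this
    omega
  · intro i hi
    have := congrArg Fin.val (hinj _ _ hi)
    simp only at this
    omega
  · intro i j hi
    have := congrArg Fin.val (hinj _ _ hi)
    simp only at this
    omega
  · intro i j hi
    have := congrArg Fin.val (hinj _ _ hi)
    simp only at this
    exact Fin.ext (by omega)
  · intro i j hi
    have := congrArg Fin.val (hinj _ _ hi)
    simp only at this
    exact Fin.ext (by omega)

end Rel

section Alg

variable {Q : Type*}



theorem kept_self (g : Beh Q) (x : DS Q) : Kept g g x ↔ Rec g x := by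
  unfold Kept Rec
  split_ifs <;> rfl

theorem wd_replicate_left {α : Type*} (c : α → Beh Q) (K : Beh Q) (w : List α)
    (hw : K ⊙ wd c w = wd c w) (n : ℕ) (hn : 1 ≤ n) :
    K ⊙ wd c (List.replicate n w).flatten = wd c (List.replicate n w).flatten := by
  obtain ⟨n, rfl⟩ : ∃ k, n = k + 1 := ⟨n - 1, by omega⟩
  rw [List.replicate_succ, List.flatten_cons, wd_append, ← mul_assoc', hw]

theorem wd_replicate_right {α : Type*} (c : α → Beh Q) (K : Beh Q) (w : List α)
    (hw : wd c w ⊙ K = wd c w) (n : ℕ) (hn : 1 ≤ n) :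
    wd c (List.replicate n w).flatten ⊙ K = wd c (List.replicate n w).flatten := by
  obtain ⟨n, rfl⟩ : ∃ k, n = k + 1 := ⟨n - 1, by omega⟩
  rw [List.replicate_succ', List.flatten_append, List.flatten_cons, List.flatten_nil,
    List.append_nil, wd_append, mul_assoc', hw]

theorem kept_replicate {α : Type*} (c : α → Beh Q) {K : Beh Q} (hK : Idem K) (w : List α)
    (h1 : K ⊙ wd c w = wd c w) (h2 : wd c w ⊙ K = wd c w) {x : DS Q} (hx : Kept K (wd c w) x)
    (n : ℕ) (hn : 1 ≤ n) : Kept K (wd c (List.replicate n w).flatten) x := by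
  obtain ⟨n, rfl⟩ : ∃ k, n = k + 1 := ⟨n - 1, by omega⟩
  clear hn
  induction n with
  | zero => simpa using hx
  | succ n ih =>
    rw [List.replicate_succ, List.flatten_cons, wd_append]
    refine kept_mul ?_ ?_ hK hx ih
    · rw [h1, h2]
    · rw [wd_replicate_left c K w h1 _ (Nat.succ_pos n),
        wd_replicate_right c K w h2 _ (Nat.succ_pos n)]

end Alg

theorem claim_base {Q : Type*} [Finite Q] {h : ℕ} (c : Let h → Beh Q) (hs : Separates c) :
    Claim c 2 1 1 := by
  intro P hP z hrz hz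
  obtain ⟨i, j, hij, rfl⟩ := Finset.card_eq_two.mp hP
  refine ⟨i, by simp, j, by simp, hij, ?_⟩
  intro X hrX hX
  by_contra hcon
  have h0 : Cost (wd c z) (wd c X) = 0 := by omega
  have hle := le_of_cost_zero hz hX h0
  -- contexts
  have hsep := hs [letter (fun a b => a = i ∧ b = i)] z X [letter (fun a b => a = j ∧ b = j)]
    hX hle
  apply hsep
  · rintro ⟨a, d, had⟩
    simp only [wordRel_append, wordRel_letter, hrz, IdP] at had
    obtain ⟨b, ⟨b', ⟨rfl, rfl⟩, rfl, -⟩, h2, -⟩ := had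
    exact hij h2
  · refine ⟨i, j, ?_⟩
    rw [wordRel_append]
    refine ⟨j, ?_, (wordRel_letter _ _ _).2 ⟨rfl, rfl⟩⟩
    rw [wordRel_append]
    exact ⟨i, (wordRel_letter _ _ _).2 ⟨rfl, rfl⟩, by rw [hrX]; exact Or.inr ⟨rfl, rfl⟩⟩

theorem claim_step {Q : Type*} [Finite Q] {h : ℕ} (c : Let h → Beh Q) (p a b q : ℕ) (hp : 2 ≤ p)
    (hc : Claim c p a b) : Claim c (p + (2 * q + 1)) (q * a) (8 * b) := by
  classical
  intro P hP z hrz hz
  rcases Nat.eq_zero_or_pos (q * a) with h0 | hpos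
  · obtain ⟨i, hi, j, hj, hij⟩ := Finset.one_lt_card.1 (show 1 < P.card by omega)
    exact ⟨i, hi, j, hj, hij, fun X _ _ => by rw [h0]; exact Nat.zero_le _⟩
  by_contra hcon
  push Not at hcon
  have hX : ∀ i j : Fin h, i ∈ P → j ∈ P → i ≠ j → ∃ X : List (Let h),
      wordRel X = LinkP P i j ∧ wd c z ⊙ wd c X ⊙ wd c z = wd c X ∧
      8 * b * Cost (wd c z) (wd c X) < q * a := by
    intro i j hi hj hij
    exact hcon i hi j hj hij
  obtain ⟨P0, c0, β, γ, hP0, hP0P, hcP, hcP0, hβP, hγP, hβP0, hγP0, hβc, hγc, hβγ, hβi, hγi⟩ :=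
    split_points P p q hP
  choose X1 hX1r hX1z hX1l using fun i : Fin q => hX (β i) c0 (hβP i) hcP (hβc i)
  choose X2 hX2r hX2z hX2l using fun j : Fin q => hX c0 (γ j) hcP (hγP j) (hγc j).symm
  have hrX1 : ∀ i a d, wordRel (X1 i) a d ↔ LinkP P (β i) c0 a d := fun i a d => by rw [hX1r]
  have hrX2 : ∀ i a d, wordRel (X2 i) a d ↔ LinkP P c0 (γ i) a d := fun i a d => by rw [hX2r]
  have hrz' : ∀ a d, wordRel z a d ↔ IdP P a d := fun a d => by rw [hrz]
  set P1 : Finset (Fin h) := P.erase c0 with hP1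
  have hP1P : ∀ a, a ∈ P1 ↔ a ∈ P ∧ a ≠ c0 := by
    intro a; rw [hP1, Finset.mem_erase]; tauto
  have hβP1 : ∀ i, β i ∈ P1 := fun i => (hP1P _).2 ⟨hβP i, hβc i⟩
  have hγP1 : ∀ i, γ i ∈ P1 := fun i => (hP1P _).2 ⟨hγP i, hγc i⟩
  have hP0P1 : ∀ a ∈ P0, a ∈ P1 := fun a ha =>
    (hP1P _).2 ⟨hP0P ha, fun hac => hcP0 (hac ▸ ha)⟩
  -- the medium K over P1
  obtain ⟨e, he, hidem⟩ := exists_idem_pow c (z ++ [letter (IdP P1)] ++ z)
  set K : List (Let h) := (List.replicate e (z ++ [letter (IdP P1)] ++ z)).flatten with hK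
  have hzz : wd c z ⊙ wd c z = wd c z := hz
  have hzK : wd c z ⊙ wd c K = wd c K :=
    wd_replicate_left c _ _ (by rw [wd_append, wd_append, ← mul_assoc', ← mul_assoc', hzz]) e he
  have hKz : wd c K ⊙ wd c z = wd c K :=
    wd_replicate_right c _ _ (by rw [wd_append, wd_append, mul_assoc', hzz]) e he
  have hrK : ∀ a d, wordRel K a d ↔ IdP P1 a d := by
    refine wordRel_replicate _ _ ?_ (IdP_idem P1) e he
    intro a d
    simp only [wordRel_append, wordRel_letter, hrz', IdP]
    constructor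
    · rintro ⟨b, ⟨b', ⟨rfl, h1⟩, rfl, h2⟩, rfl, h3⟩
      exact ⟨rfl, h2⟩
    · rintro ⟨rfl, h1⟩
      have h2 := ((hP1P _).1 h1).1
      exact ⟨a, ⟨a, ⟨rfl, h2⟩, rfl, h1⟩, rfl, h2⟩
  have hKK : wd c K ⊙ wd c K = wd c K := hidem
  -- the V's
  have hrV : ∀ i j a d, wordRel (K ++ X1 i ++ X2 j ++ K) a d ↔ LinkP P1 (β i) (γ j) a d := by
    intro i j a d
    simp only [wordRel_append, hrK, hrX1, hrX2, IdP, LinkP]
    constructor
    · rintro ⟨b3, ⟨b2, ⟨b1, ⟨rfl, h1⟩, h2⟩, h3⟩, rfl, h4⟩
      rcases h2 with ⟨rfl, h2⟩ | ⟨rfl, rfl⟩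
      · rcases h3 with ⟨rfl, h3⟩ | ⟨rfl, rfl⟩
        · exact Or.inl ⟨rfl, h1⟩
        · exact absurd rfl ((hP1P _).1 h1).2
      · rcases h3 with ⟨rfl, h3⟩ | ⟨-, rfl⟩
        · exact absurd rfl ((hP1P _).1 h4).2
        · exact Or.inr ⟨rfl, rfl⟩
    · rintro (⟨rfl, h1⟩ | ⟨rfl, rfl⟩)
      · have h2 := ((hP1P _).1 h1).1
        exact ⟨a, ⟨a, ⟨a, ⟨rfl, h1⟩, Or.inl ⟨rfl, h2⟩⟩, Or.inl ⟨rfl, h2⟩⟩, rfl, h1⟩
      · exact ⟨γ j, ⟨c0, ⟨β i, ⟨rfl, hβP1 i⟩, Or.inr ⟨rfl, rfl⟩⟩, Or.inr ⟨rfl, rfl⟩⟩, rfl, hγP1 j⟩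
  set T : Set (DS Q) := {x | Rec (wd c K) x ∧
    ∀ i j, Kept (wd c K) (wd c K ⊙ wd c (X1 i) ⊙ wd c (X2 j) ⊙ wd c K) x} with hT
  -- good medium for P0
  obtain ⟨K0, hrK0e, hK0, hgood⟩ := exists_good c P0
  have hrK0 : ∀ a d, wordRel K0 a d ↔ IdP P0 a d := fun a d => by rw [hrK0e]
  have hK0K0 : wd c K0 ⊙ wd c K0 = wd c K0 := hK0
  obtain ⟨s, hs, t, ht, hst, hcost⟩ := hc P0 hP0 K0 hrK0e hK0
  -- the chain
  have hchain : ∀ A : Finset (Fin q × Fin q), ∃ g : List (Let h), Idem (wd c g) ∧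
      wd c K ⊙ wd c g = wd c g ∧ wd c g ⊙ wd c K = wd c g ∧
      (∀ a d, wordRel g a d ↔ relA P1 β γ A a d) ∧ (∀ x ∈ T, Kept (wd c K) (wd c g) x) ∧
      2 * b * (Psi true T (wd c g) + Psi false T (wd c g)) + A.card * a ≤
        2 * b * (Psi true T (wd c K) + Psi false T (wd c K)) := by
    intro A
    induction A using Finset.induction_on with
    | empty =>
      refine ⟨K, hidem, hidem, hidem, ?_, ?_, by simp⟩
      · intro a d; rw [hrK]; simp [relA, IdP]
      · intro x hx; exact (kept_self _ x).2 hx.1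
    | insert r A hr ih =>
      obtain ⟨i, j⟩ := r
      obtain ⟨g, hg, hKg, hgK, hrg, hTg, hsum⟩ := ih
      have hgg : wd c g ⊙ wd c g = wd c g := hg
      have hrVij := hrV i j
      have hVwd : wd c (K ++ X1 i ++ X2 j ++ K) =
          wd c K ⊙ wd c (X1 i) ⊙ wd c (X2 j) ⊙ wd c K := by
        rw [wd_append, wd_append, wd_append]
      set V : List (Let h) := K ++ X1 i ++ X2 j ++ K with hV
      have hVK : wd c K ⊙ wd c V = wd c V := by
        rw [hVwd, ← mul_assoc', ← mul_assoc', ← mul_assoc', hKK]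
      have hVK' : wd c V ⊙ wd c K = wd c V := by
        rw [hVwd, mul_assoc', hKK]
      obtain ⟨e', he', hidem'⟩ := exists_idem_pow c (g ++ V ++ g)
      have hwd3 : wd c (g ++ V ++ g) = wd c g ⊙ wd c V ⊙ wd c g := by
        rw [wd_append, wd_append]
      have hKw : wd c K ⊙ wd c (g ++ V ++ g) = wd c (g ++ V ++ g) := by
        rw [hwd3, ← mul_assoc', ← mul_assoc', hKg]
      have hwK : wd c (g ++ V ++ g) ⊙ wd c K = wd c (g ++ V ++ g) := by
        rw [hwd3, mul_assoc', hgK]
      set f : List (Let h) := (List.replicate e' (g ++ V ++ g)).flatten with hf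
      have hff : wd c f ⊙ wd c f = wd c f := hidem'
      have hgf : wd c g ⊙ wd c f = wd c f :=
        wd_replicate_left c _ _ (by rw [hwd3, ← mul_assoc', ← mul_assoc', hgg]) e' he'
      have hfg : wd c f ⊙ wd c g = wd c f :=
        wd_replicate_right c _ _ (by rw [hwd3, mul_assoc', hgg]) e' he'
      have hKf : wd c K ⊙ wd c f = wd c f := wd_replicate_left c _ _ hKw e' he'
      have hfK : wd c f ⊙ wd c K = wd c f := wd_replicate_right c _ _ hwK e' he'
      have hrf : ∀ a d, wordRel f a d ↔ relA P1 β γ (insert (i, j) A) a d := by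
        refine wordRel_replicate _ _ ?_ (relA_trans hβP1 hβγ _) e' he'
        intro a d
        simp only [wordRel_append, hrg, hrVij]
        constructor
        · rintro ⟨b2, ⟨b1, h1, h2⟩, h3⟩
          rcases h2 with ⟨rfl, h2⟩ | ⟨rfl, rfl⟩
          · have := (relA_trans hβP1 hβγ A a d).1 ⟨b1, h1, h3⟩
            rcases this with h4 | ⟨r, hr', h4⟩
            · exact Or.inl h4
            · exact Or.inr ⟨r, Finset.mem_insert_of_mem hr', h4⟩
          · rcases h1 with ⟨rfl, h1⟩ | ⟨r, hr', rfl, h1⟩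
            · rcases h3 with ⟨rfl, h3⟩ | ⟨r, hr', h3, rfl⟩
              · exact Or.inr ⟨(i, j), Finset.mem_insert_self _ _, rfl, rfl⟩
              · exact absurd h3.symm (hβγ _ _)
            · exact absurd h1 (hβγ _ _)
        · rintro (⟨rfl, h1⟩ | ⟨r, hr', rfl, rfl⟩)
          · exact ⟨a, ⟨a, Or.inl ⟨rfl, h1⟩, Or.inl ⟨rfl, h1⟩⟩, Or.inl ⟨rfl, h1⟩⟩
          · rcases Finset.mem_insert.1 hr' with rfl | hr''
            · exact ⟨γ j, ⟨β i, Or.inl ⟨rfl, hβP1 _⟩, Or.inr ⟨rfl, rfl⟩⟩, Or.inl ⟨rfl, hγP1 _⟩⟩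
            · exact ⟨γ r.2, ⟨γ r.2, Or.inr ⟨r, hr'', rfl, rfl⟩, Or.inl ⟨rfl, hγP1 _⟩⟩,
                Or.inl ⟨rfl, hγP1 _⟩⟩
      have hTf : ∀ x ∈ T, Kept (wd c K) (wd c f) x := by
        intro x hx
        have hxV : Kept (wd c K) (wd c V) x := by rw [hVwd]; exact hx.2 i j
        have h1 : Kept (wd c K) (wd c g ⊙ wd c V) x :=
          kept_mul (by rw [hKg, hgK]) (by rw [hVK, hVK']) hidem (hTg x hx) hxV
        have h2 : Kept (wd c K) (wd c g ⊙ wd c V ⊙ wd c g) x :=
          kept_mul (by rw [← mul_assoc', hKg, mul_assoc', hVK']) (by rw [hKg, hgK]) hidem h1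
            (hTg x hx)
        exact kept_replicate c hidem _ hKw hwK (by rw [hwd3]; exact h2) e' he'
      have hgfg : wd c g ⊙ wd c f ⊙ wd c g = wd c f := by rw [hgf, hfg]
      have hKgK : wd c K ⊙ wd c g ⊙ wd c K = wd c g := by rw [hKg, hgK]
      have hTT : ∀ x ∈ T, Rec (wd c g) x ∧ Kept (wd c g) (wd c f) x := by
        intro x hx
        refine ⟨(kept_self _ x).1 ?_, ?_⟩
        · exact kept_of_kept hidem hKgK (by rw [hgg, hgg]) (hTg x hx)
        · exact kept_of_kept hidem hKgK hgfg (hTf x hx)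
      have hdrop1 := drop true T hg hidem' hgfg (fun x hx _ => hTT x hx)
      have hdrop2 := drop false T hg hidem' hgfg (fun x hx _ => hTT x hx)
      have hcl := cost_le_lostT (wd c g) (wd c f) hg
      -- the context
      set u : List (Let h) := [letter (LinkP P0 s (β i))] with hu
      set v : List (Let h) := [letter (LinkP P0 (γ j) t)] with hv
      have hru : ∀ a d, wordRel u a d ↔ LinkP P0 s (β i) a d := wordRel_letter _
      have hrv : ∀ a d, wordRel v a d ↔ LinkP P0 (γ j) t a d := wordRel_letter _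
      have hPγ : ∀ a ∈ P0, ∀ k, a ≠ γ k := fun a ha k hk => hγP0 k (hk ▸ ha)
      have hPβ : ∀ a ∈ P0, ∀ k, a ≠ β k := fun a ha k hk => hβP0 k (hk ▸ ha)
      have hWg : ∀ a d, wordRel (u ++ g ++ v) a d ↔ IdP P0 a d := by
        intro a d
        simp only [wordRel_append, hru, hrv, hrg, IdP, LinkP]
        constructor
        · rintro ⟨b3, ⟨b2, h2, h3⟩, h4⟩
          rcases h2 with ⟨rfl, h2⟩ | ⟨rfl, rfl⟩
          · rcases h3 with ⟨rfl, h3⟩ | ⟨r, hr', h3, rfl⟩
            · rcases h4 with ⟨rfl, h4⟩ | ⟨h4, rfl⟩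
              · exact ⟨rfl, h2⟩
              · exact absurd h4 (hPγ _ h2 _)
            · exact absurd h3 (hPβ _ h2 _)
          · rcases h3 with ⟨rfl, h3⟩ | ⟨r, hr', h3, rfl⟩
            · rcases h4 with ⟨rfl, h4⟩ | ⟨h4, rfl⟩
              · exact absurd h4 (hβP0 _)
              · exact absurd h4 (hβγ _ _)
            · rcases h4 with ⟨rfl, h4⟩ | ⟨h4, rfl⟩
              · exact absurd h4 (hγP0 _)
              · exfalso
                apply hr
                have e1 := hβi h3
                have e2 := hγi h4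
                have : r = (i, j) := Prod.ext e1.symm e2
                exact this ▸ hr'
        · rintro ⟨rfl, h1⟩
          exact ⟨a, ⟨a, Or.inl ⟨rfl, h1⟩, Or.inl ⟨rfl, hP0P1 a h1⟩⟩, Or.inl ⟨rfl, h1⟩⟩
      have hWf : ∀ a d, wordRel (u ++ f ++ v) a d ↔ LinkP P0 s t a d := by
        intro a d
        simp only [wordRel_append, hru, hrv, hrf, LinkP]
        constructor
        · rintro ⟨b3, ⟨b2, h2, h3⟩, h4⟩
          rcases h2 with ⟨rfl, h2⟩ | ⟨rfl, rfl⟩
          · rcases h3 with ⟨rfl, h3⟩ | ⟨r, hr', h3, rfl⟩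
            · rcases h4 with ⟨rfl, h4⟩ | ⟨h4, rfl⟩
              · exact Or.inl ⟨rfl, h2⟩
              · exact absurd h4 (hPγ _ h2 _)
            · exact absurd h3 (hPβ _ h2 _)
          · rcases h3 with ⟨rfl, h3⟩ | ⟨r, hr', h3, rfl⟩
            · rcases h4 with ⟨rfl, h4⟩ | ⟨h4, rfl⟩
              · exact absurd h4 (hβP0 _)
              · exact absurd h4 (hβγ _ _)
            · rcases h4 with ⟨rfl, h4⟩ | ⟨h4, rfl⟩
              · exact absurd h4 (hγP0 _)
              · exact Or.inr ⟨rfl, rfl⟩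
        · rintro (⟨rfl, h1⟩ | ⟨rfl, rfl⟩)
          · exact ⟨a, ⟨a, Or.inl ⟨rfl, h1⟩, Or.inl ⟨rfl, hP0P1 a h1⟩⟩, Or.inl ⟨rfl, h1⟩⟩
          · exact ⟨γ j, ⟨β i, Or.inr ⟨rfl, rfl⟩,
              Or.inr ⟨(i, j), Finset.mem_insert_self _ _, rfl, rfl⟩⟩, Or.inr ⟨rfl, rfl⟩⟩
      obtain ⟨w', hrw'e, hw'⟩ := hgood (u ++ g ++ v) (by
        funext a d; exact propext (hWg a d))
      have hrw' : ∀ a d, wordRel w' a d ↔ IdP P0 a d := fun a d => by rw [hrw'e]
      rw [wd_append, wd_append] at hw'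
      have hinj : Cost (wd c K0)
          ((wd c K0 ⊙ wd c u ⊙ wd c g) ⊙ wd c f ⊙ (wd c g ⊙ (wd c v ⊙ wd c K0 ⊙ wd c w' ⊙ wd c K0)))
          ≤ Cost (wd c g) (wd c f) := by
        refine inj hK0 hg ?_ ?_ ?_ ?_ ?_ hgfg
        · rw [← mul_assoc', ← mul_assoc', hK0K0]
        · rw [mul_assoc', hgg]
        · rw [← mul_assoc', hgg]
        · rw [mul_assoc', mul_assoc', hK0K0]
        · calc wd c K0 ⊙ wd c u ⊙ wd c g ⊙ (wd c g ⊙ (wd c v ⊙ wd c K0 ⊙ wd c w' ⊙ wd c K0))
              = wd c K0 ⊙ (wd c u ⊙ wd c g ⊙ wd c v) ⊙ wd c K0 ⊙ wd c w' ⊙ wd c K0 := by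
                simp only [← mul_assoc']
                rw [mul_assoc' (wd c K0 ⊙ wd c u) (wd c g) (wd c g), hgg]
            _ = wd c K0 := hw'
      have hXwd : wd c (K0 ++ u ++ g ++ f ++ (g ++ (v ++ K0 ++ w' ++ K0))) =
          (wd c K0 ⊙ wd c u ⊙ wd c g) ⊙ wd c f ⊙
            (wd c g ⊙ (wd c v ⊙ wd c K0 ⊙ wd c w' ⊙ wd c K0)) := by
        simp only [wd_append]
      have hrX' : ∀ a d, wordRel (K0 ++ u ++ g ++ f ++ (g ++ (v ++ K0 ++ w' ++ K0))) a d ↔
          LinkP P0 s t a d := by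
        have hgfg' : ∀ a d, wordRel (g ++ f ++ g) a d ↔ wordRel f a d := by
          intro a d
          rw [hrf a d]
          simp only [wordRel_append, hrg, hrf]
          constructor
          · rintro ⟨b2, ⟨b1, h1, h2⟩, h3⟩
            have m1 : ∀ x y, relA P1 β γ A x y → relA P1 β γ (insert (i, j) A) x y := by
              rintro x y (h | ⟨r, hr', h⟩)
              · exact Or.inl h
              · exact Or.inr ⟨r, Finset.mem_insert_of_mem hr', h⟩
            exact (relA_trans hβP1 hβγ _ a d).1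
              ⟨b2, (relA_trans hβP1 hβγ _ a b2).1 ⟨b1, m1 _ _ h1, h2⟩, m1 _ _ h3⟩
          · rintro (⟨rfl, h1⟩ | ⟨r, hr', rfl, rfl⟩)
            · exact ⟨a, ⟨a, Or.inl ⟨rfl, h1⟩, Or.inl ⟨rfl, h1⟩⟩, Or.inl ⟨rfl, h1⟩⟩
            · exact ⟨γ r.2, ⟨β r.1, Or.inl ⟨rfl, hβP1 _⟩, Or.inr ⟨r, hr', rfl, rfl⟩⟩,
                Or.inl ⟨rfl, hγP1 _⟩⟩
        intro a d
        have e1 : K0 ++ u ++ g ++ f ++ (g ++ (v ++ K0 ++ w' ++ K0)) =
            K0 ++ (u ++ (g ++ f ++ g) ++ v) ++ (K0 ++ w' ++ K0) := by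
          simp only [List.append_assoc]
        have e2 : ∀ a d, wordRel (u ++ (g ++ f ++ g) ++ v) a d ↔ LinkP P0 s t a d := by
          intro a d
          rw [← hWf a d]
          simp only [wordRel_append u, wordRel_append _ v, hgfg']
        rw [e1, wordRel_append]
        simp only [wordRel_append K0, wordRel_append _ K0, e2, hrK0, hrw', IdP]
        unfold LinkP
        constructor
        · rintro ⟨b1, ⟨b2, ⟨rfl, h1⟩, h2⟩, b3, ⟨b4, ⟨rfl, h4⟩, rfl, h5⟩, rfl, h6⟩
          exact h2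
        · rintro (⟨rfl, h1⟩ | ⟨rfl, rfl⟩)
          · exact ⟨a, ⟨a, ⟨rfl, h1⟩, Or.inl ⟨rfl, h1⟩⟩, a, ⟨a, ⟨rfl, h1⟩, rfl, h1⟩, rfl, h1⟩
          · exact ⟨d, ⟨a, ⟨rfl, hs⟩, Or.inr ⟨rfl, rfl⟩⟩, d, ⟨d, ⟨rfl, ht⟩, rfl, ht⟩, rfl, ht⟩
      have hLX' := hcost _ (by funext a d; exact propext (hrX' a d)) (by
        rw [hXwd]
        simp only [← mul_assoc']
        rw [hK0K0, mul_assoc' _ (wd c K0) (wd c K0), hK0K0])
      rw [hXwd] at hLX'
      have hL3 : a ≤ b * (LostT true (wd c g) (wd c f) + LostT false (wd c g) (wd c f)) :=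
        hLX'.trans (Nat.mul_le_mul_left _ (hinj.trans hcl))
      refine ⟨f, hidem', hKf, hfK, hrf, hTf, ?_⟩
      rw [Finset.card_insert_of_notMem hr]
      have hmul : b * (2 * (Psi true T (wd c f) + Psi false T (wd c f)) +
          (LostT true (wd c g) (wd c f) + LostT false (wd c g) (wd c f))) ≤
          b * (2 * (Psi true T (wd c g) + Psi false T (wd c g))) :=
        Nat.mul_le_mul_left _ (by omega)
      nlinarith
  obtain ⟨g, -, -, -, -, -, hfin⟩ := hchain Finset.univ
  have hcount := count2 hidem hz hKz hzK (fun i => wd c (X1 i)) (fun j => wd c (X2 j))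
    hX1z hX2z
  have hset : {x | Rec (wd c K) x ∧ x ∉ T} = {x | Rec (wd c K) x ∧ ∃ i j,
      ¬ Kept (wd c K) (wd c K ⊙ wd c (X1 i) ⊙ wd c (X2 j) ⊙ wd c K) x} := by
    ext x
    simp only [hT, Set.mem_ofPred_eq, not_and, not_forall]
    constructor
    · rintro ⟨h1, h2⟩; exact ⟨h1, h2 h1⟩
    · rintro ⟨h1, h2⟩; exact ⟨h1, fun _ => h2⟩
  have hp1 := psi_le_bad true hidem T
  have hp2 := psi_le_bad false hidem T
  rw [hset] at hp1 hp2
  have hs1 : 8 * b * (∑ i, Cost (wd c z) (wd c (X1 i))) ≤ q * (q * a - 1) := by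
    rw [Finset.mul_sum]
    calc ∑ i, 8 * b * Cost (wd c z) (wd c (X1 i)) ≤ ∑ _i : Fin q, (q * a - 1) :=
          Finset.sum_le_sum (fun i _ => by have := hX1l i; omega)
      _ = q * (q * a - 1) := by simp
  have hs2 : 8 * b * (∑ i, Cost (wd c z) (wd c (X2 i))) ≤ q * (q * a - 1) := by
    rw [Finset.mul_sum]
    calc ∑ i, 8 * b * Cost (wd c z) (wd c (X2 i)) ≤ ∑ _i : Fin q, (q * a - 1) :=
          Finset.sum_le_sum (fun i _ => by have := hX2l i; omega)
      _ = q * (q * a - 1) := by simp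
  have hcard : (Finset.univ : Finset (Fin q × Fin q)).card = q * q := by
    simp
  rw [hcard] at hfin
  have hq : 0 < q := Nat.pos_of_mul_pos_right hpos |> fun _ => by
    rcases Nat.eq_zero_or_pos q with h | h
    · rw [h] at hpos; simp at hpos
    · exact h
  set N := (mcls (wd c K) '' {x | Rec (wd c K) x ∧ ∃ i j,
      ¬ Kept (wd c K) (wd c K ⊙ wd c (X1 i) ⊙ wd c (X2 j) ⊙ wd c K) x}).ncard with hN
  set S1 := ∑ i, Cost (wd c z) (wd c (X1 i)) with hS1
  set S2 := ∑ j, Cost (wd c z) (wd c (X2 j)) with hS2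
  have k1 : q * q * a ≤ 2 * b * (2 * N) := by
    refine (Nat.le_add_left _ _).trans (hfin.trans (Nat.mul_le_mul_left _ ?_))
    omega
  have k2 : 2 * b * (2 * N) ≤ 2 * b * (2 * (S1 + S2)) :=
    Nat.mul_le_mul_left _ (Nat.mul_le_mul_left _ hcount)
  have k3 : 2 * (2 * b * (2 * (S1 + S2))) ≤ 2 * (q * (q * a - 1)) := by
    calc 2 * (2 * b * (2 * (S1 + S2))) = 8 * b * S1 + 8 * b * S2 := by ring
      _ ≤ q * (q * a - 1) + q * (q * a - 1) := Nat.add_le_add hs1 hs2
      _ = 2 * (q * (q * a - 1)) := by ring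
  have k4 : q * (q * a) ≤ q * (q * a - 1) := by
    have : q * q * a = q * (q * a) := by ring
    omega
  have k5 := Nat.le_of_mul_le_mul_left k4 hq
  omega

end Crest.Agent.R294
end

-- ▼ part R294/Core
section

/-!
R294: the core theorem from the base and the step of `Claim`.
-/

set_option autoImplicit false

namespace Crest.Agent.R294

open Crest.TwoWay

namespace GW

/-- `Cost` is at most the number of directed states. -/
theorem cost_le_aux {Q : Type*} [Fintype Q] (g f : Beh Q) : Cost g f ≤ 2 * Fintype.card Q := by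
  classical
  unfold Cost
  calc (mcls g '' Lost g f).ncard ≤ (Lost g f).ncard := Set.ncard_image_le (Set.toFinite _)
    _ ≤ (Set.univ : Set (DS Q)).ncard := Set.ncard_le_ncard (Set.subset_univ _) (Set.toFinite _)
    _ = 2 * Fintype.card Q := by
        rw [Set.ncard_univ, Nat.card_eq_fintype_card, Fintype.card_prod, Fintype.card_bool]

theorem sandwich {Q : Type*} (z x : Beh Q) (hz : Idem z) :
    z ⊙ (z ⊙ x ⊙ z) ⊙ z = z ⊙ x ⊙ z := by
  have e : z ⊙ z = z := hz
  calc z ⊙ (z ⊙ x ⊙ z) ⊙ z = (z ⊙ z) ⊙ x ⊙ (z ⊙ z) := by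
        simp only [mul_assoc']
    _ = z ⊙ x ⊙ z := by rw [e]

theorem wordRel_link {h : ℕ} (P : Finset (Fin h)) (i j : Fin h) (hi : i ∈ P) (hj : j ∈ P)
    (z : List (Let h)) (hz : wordRel z = IdP P) :
    wordRel (z ++ [letter (LinkP P i j)] ++ z) = LinkP P i j := by
  rw [wordRel_app, wordRel_app, wordRel_let, hz]
  funext a c
  apply propext
  constructor
  · rintro ⟨b, ⟨d, ⟨rfl, h1⟩, h2⟩, ⟨rfl, h3⟩⟩
    exact h2
  · intro hL
    rcases hL with ⟨rfl, h1⟩ | ⟨rfl, rfl⟩
    · exact ⟨a, ⟨a, ⟨rfl, h1⟩, Or.inl ⟨rfl, h1⟩⟩, ⟨rfl, h1⟩⟩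
    · exact ⟨c, ⟨a, ⟨rfl, hi⟩, Or.inr ⟨rfl, rfl⟩⟩, ⟨rfl, hj⟩⟩

theorem claim_iter {Q : Type*} {h : ℕ} (c : Let h → Beh Q) (q : ℕ)
    (hb : Claim c 2 1 1)
    (hs : ∀ p a b, 2 ≤ p → Claim c p a b → Claim c (p + (2 * q + 1)) (q * a) (8 * b)) :
    ∀ k, Claim c (2 + k * (2 * q + 1)) (q ^ k) (8 ^ k) := by
  intro k
  induction k with
  | zero => simpa using hb
  | succ k ih =>
    have := hs _ _ _ (by omega) ih
    have e1 : 2 + k * (2 * q + 1) + (2 * q + 1) = 2 + (k + 1) * (2 * q + 1) := by ring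
    rw [e1, ← pow_succ', ← pow_succ'] at this
    exact this

theorem core_of {Q : Type*} [Fintype Q] {h : ℕ} (c : Let h → Beh Q) (q k : ℕ)
    (hk : 2 + k * (2 * q + 1) ≤ h) (hb : Claim c 2 1 1)
    (hs : ∀ p a b, 2 ≤ p → Claim c p a b → Claim c (p + (2 * q + 1)) (q * a) (8 * b)) :
    q ^ k ≤ 8 ^ k * (2 * Fintype.card Q) := by
  obtain ⟨P, -, hP⟩ := Finset.exists_subset_card_eq (s := (Finset.univ : Finset (Fin h)))
    (n := 2 + k * (2 * q + 1)) (by rw [Finset.card_univ, Fintype.card_fin]; exact hk)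
  obtain ⟨z, hz, hI⟩ := exists_idem_word c P
  obtain ⟨i, hi, j, hj, -, hX⟩ := claim_iter c q hb hs k P hP z hz hI
  have h1 := hX (z ++ [letter (LinkP P i j)] ++ z) (wordRel_link P i j hi hj z hz) (by
    rw [wd_append, wd_append]
    exact sandwich _ _ hI)
  exact h1.trans (Nat.mul_le_mul_left _ (cost_le_aux _ _))

end GW

/-- the core theorem used by the final files -/
theorem core {Q : Type*} [Fintype Q] {h : ℕ} (c : Let h → Beh Q) (hs : Separates c) (q k : ℕ)
    (hk : 2 + k * (2 * q + 1) ≤ h) : q ^ k ≤ 8 ^ k * (2 * Fintype.card Q) :=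
  GW.core_of c q k hk (claim_base c hs) (fun p a b hp hc => claim_step c p a b q hp hc)

end Crest.Agent.R294
end

-- ▼ part R294/Exist
section

/-!
R294: the easy halves of S0444 / S0445: a one-pass nondeterministic automaton with `N ≥ h + 2`
states and no left moves recognizing one-way liveness on `h` points.
-/

set_option autoImplicit false

namespace Crest.Agent.R294

open Crest.TwoWay

/-- the one-pass automaton on `Fin N`, `h + 2 ≤ N`: states `0..h-1` are points, `h` is the start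
state, `h + 1` is the accepting state. -/
def liveNFA (h N : ℕ) (hN : h + 2 ≤ N) : TwoWayNFA (Fin h → Fin h → Bool) (Fin N) where
  start := ⟨h, by omega⟩
  accept := {q | q.val = h + 1}
  step := fun q c =>
    match c with
    | Cell.leftEnd => {p | q.val = h ∧ p.1.val < h ∧ p.2 = HeadMove.moveRight}
    | Cell.letter R => {p | ∃ (hq : q.val < h) (hp : p.1.val < h),
        R ⟨q.val, hq⟩ ⟨p.1.val, hp⟩ = true ∧ p.2 = HeadMove.moveRight}
    | Cell.rightEnd => {p | q.val < h ∧ p.1.val = h + 1 ∧ p.2 = HeadMove.stay}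

theorem liveNFA_noLeft (h N : ℕ) (hN : h + 2 ≤ N) : (liveNFA h N hN).NoLeftMoves := by
  intro q a p hp
  cases a with
  | leftEnd =>
    obtain ⟨_, _, h3⟩ := hp
    rw [h3]; intro hc; cases hc
  | letter R =>
    obtain ⟨_, _, _, h3⟩ := hp
    rw [h3]; intro hc; cases hc
  | rightEnd =>
    obtain ⟨_, _, h3⟩ := hp
    rw [h3]; intro hc; cases hc

theorem scan_zero {α : Type*} (w : List α) : scan w 0 = Cell.leftEnd := by
  simp [scan]

theorem scan_succ {α : Type*} (w : List α) (i : ℕ) (hi : i < w.length) :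
    scan w (i + 1) = Cell.letter w[i] := by
  simp [scan, hi]

theorem scan_last {α : Type*} (w : List α) : scan w (w.length + 1) = Cell.rightEnd := by
  simp [scan]

theorem wordRel_snoc {h : ℕ} (w : List (Fin h → Fin h → Bool)) (R : Fin h → Fin h → Bool)
    (a c : Fin h) : wordRel (w ++ [R]) a c ↔ ∃ b, wordRel w a b ∧ R b c = true := by
  induction w generalizing a with
  | nil =>
    constructor
    · rintro ⟨b, hb, hbc⟩
      have : b = c := hbc
      exact ⟨a, rfl, this ▸ hb⟩
    · rintro ⟨b, hb, hbc⟩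
      have : a = b := hb
      exact ⟨c, this ▸ hbc, rfl⟩
  | cons S w ih =>
    constructor
    · rintro ⟨b, hb, hbc⟩
      obtain ⟨d, hd, hdc⟩ := (ih b).1 hbc
      exact ⟨d, ⟨b, hb, hd⟩, hdc⟩
    · rintro ⟨d, ⟨b, hb, hbd⟩, hdc⟩
      exact ⟨b, hb, (ih b).2 ⟨d, hbd, hdc⟩⟩

theorem liveNFA_run {h N : ℕ} (hN : h + 2 ≤ N) (w : List (Fin h → Fin h → Bool)) (a : Fin h) :
    ∀ (i : ℕ), i ≤ w.length → ∀ c : Fin h, wordRel (w.take i) a c →
      Relation.ReflTransGen ((liveNFA h N hN).Step w)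
        (⟨a.val, by have := a.isLt; omega⟩, 1) (⟨c.val, by have := c.isLt; omega⟩, i + 1) := by
  intro i
  induction i with
  | zero =>
    intro _ c hc
    have hac : a = c := by simpa [wordRel] using hc
    subst hac
    exact Relation.ReflTransGen.refl
  | succ i ih =>
    intro hi c hc
    have hi' : i < w.length := by omega
    rw [List.take_succ_eq_append_getElem hi', wordRel_snoc] at hc
    obtain ⟨b, hb, hbc⟩ := hc
    refine Relation.ReflTransGen.tail (ih (by omega) b hb) ?_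
    refine ⟨HeadMove.moveRight, ?_, ?_⟩
    · show _ ∈ (liveNFA h N hN).step _ (scan w (i + 1))
      rw [scan_succ w i hi']
      exact ⟨b.isLt, c.isLt, hbc, rfl⟩
    · show movePos w.length (i + 1) HeadMove.moveRight = some (i + 1 + 1)
      have : ¬ (w.length + 1 ≤ i + 1) := by omega
      simp only [movePos, this, if_false]

theorem liveNFA_language (h N : ℕ) (hN : h + 2 ≤ N) :
    (liveNFA h N hN).language = liveness h := by
  apply Set.ext
  intro w
  constructor
  · rintro ⟨⟨q, i⟩, hr, hq⟩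
    have inv : ∀ c : Fin N × ℕ, Relation.ReflTransGen ((liveNFA h N hN).Step w)
        ((liveNFA h N hN).start, 0) c →
        (c.1.val = h ∧ c.2 = 0) ∨
        (∃ hq : c.1.val < h, ∃ j, c.2 = j + 1 ∧ j ≤ w.length ∧
          ∃ a, wordRel (w.take j) a ⟨c.1.val, hq⟩) ∨
        (c.1.val = h + 1 ∧ w ∈ liveness h) := by
      intro c hc
      induction hc with
      | refl => exact Or.inl ⟨rfl, rfl⟩
      | @tail b c _ hstep ih =>
        obtain ⟨m, hm, hpos⟩ := hstep
        rcases ih with ⟨h1, h2⟩ | ⟨hq, j, hj, hjl, a, ha⟩ | ⟨h1, h2⟩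
        · rw [h2, scan_zero] at hm
          obtain ⟨_, h4, h5⟩ := hm
          have h5' : m = HeadMove.moveRight := h5
          subst h5'
          right; left
          refine ⟨h4, 0, ?_, Nat.zero_le _, ⟨c.1.val, h4⟩, ?_⟩
          · rw [h2] at hpos
            simp [movePos] at hpos
            omega
          · simp [wordRel]
        · by_cases hjl' : j < w.length
          · rw [hj, scan_succ w j hjl'] at hm
            obtain ⟨hq', hp', hR, h5⟩ := hm
            have h5' : m = HeadMove.moveRight := h5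
            subst h5'
            right; left
            refine ⟨hp', j + 1, ?_, hjl', a, ?_⟩
            · rw [hj] at hpos
              have : ¬ (w.length + 1 ≤ j + 1) := by omega
              simp only [movePos, this, if_false, Option.some.injEq] at hpos
              omega
            · rw [List.take_succ_eq_append_getElem hjl', wordRel_snoc]
              exact ⟨_, ha, hR⟩
          · have hje : j = w.length := by omega
            rw [hj, hje, scan_last] at hm
            obtain ⟨_, h4, h5⟩ := hm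
            right; right
            refine ⟨h4, ?_⟩
            rw [hje, List.take_length] at ha
            exact ⟨_, _, ha⟩
        · exfalso
          rcases hb : scan w b.2 with _ | R | _
          · rw [hb] at hm
            obtain ⟨h3, _, _⟩ := hm
            omega
          · rw [hb] at hm
            obtain ⟨h3, _, _, _⟩ := hm
            omega
          · rw [hb] at hm
            obtain ⟨h3, _, _⟩ := hm
            omega
    have hq' : q.val = h + 1 := hq
    rcases inv (q, i) hr with ⟨h1, _⟩ | ⟨h1, _⟩ | ⟨_, h2⟩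
    · exfalso
      have : q.val = h := h1
      omega
    · exfalso
      have : q.val < h := h1
      omega
    · exact h2
  · rintro ⟨a, b, hab⟩
    refine ⟨(⟨h + 1, by omega⟩, w.length + 1), ?_, rfl⟩
    have h1 : (liveNFA h N hN).Step w ((liveNFA h N hN).start, 0)
        (⟨a.val, by have := a.isLt; omega⟩, 1) := by
      refine ⟨HeadMove.moveRight, ?_, ?_⟩
      · show _ ∈ (liveNFA h N hN).step _ (scan w 0)
        rw [scan_zero]
        exact ⟨rfl, a.isLt, rfl⟩
      · simp [movePos]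
    have h2 := liveNFA_run hN w a w.length le_rfl b (by rwa [List.take_length])
    have h3 : (liveNFA h N hN).Step w (⟨b.val, by have := b.isLt; omega⟩, w.length + 1)
        (⟨h + 1, by omega⟩, w.length + 1) := by
      refine ⟨HeadMove.stay, ?_, ?_⟩
      · show _ ∈ (liveNFA h N hN).step _ (scan w (w.length + 1))
        rw [scan_last]
        exact ⟨b.isLt, rfl, rfl⟩
      · simp [movePos]
    exact (Relation.ReflTransGen.head h1 h2).tail h3

/-- first half of S0444 -/
theorem exist_S0444 (n : ℕ) (hn : 4 ≤ n) :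
    ∃ A : TwoWayNFA (Fin (n - 2) → Fin (n - 2) → Bool) (Fin n),
      A.language = liveness (n - 2) :=
  ⟨liveNFA (n - 2) n (by omega), liveNFA_language _ _ _⟩

/-- first half of S0445 -/
theorem exist_S0445 (h : ℕ) :
    ∃ A : TwoWayNFA (Fin h → Fin h → Bool) (Fin (h + 3)),
      A.NoLeftMoves ∧ A.language = liveness h :=
  ⟨liveNFA h (h + 3) (by omega), liveNFA_noLeft _ _ _, liveNFA_language _ _ _⟩

end Crest.Agent.R294
private theorem rz_8084a54639 : type_of% @_root_.Crest.TwoWay.movePos.eq_1 := @_root_.Crest.TwoWay.movePos.eq_1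
end

-- ▼ part R294/Tape
section

/-!
R294: normalised runs.  State type `Option σ` (`none` = accepted, moves right for ever), integer
tape positions `0 .. ℓ + 1` of the cells `leftEnd :: letters ++ [rightEnd]`.
-/

set_option autoImplicit false

namespace Crest.Agent.R294

open Crest.TwoWay

universe u v

variable {α : Type u} {σ : Type v}

/-- displacement of a head move -/
def disp : HeadMove → ℤ
  | HeadMove.moveLeft => -1
  | HeadMove.stay => 0
  | HeadMove.moveRight => 1

/-- rules of the normalised machine on `Option σ`. -/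
def rule (M : TwoWayNFA α σ) : Option σ → Cell α → Set (Option σ × HeadMove)
  | none, _ => {p | p = (none, HeadMove.moveRight)}
  | some q, c => {p | (q ∈ M.accept ∧ p = (none, HeadMove.moveRight)) ∨
      (q ∉ M.accept ∧ ∃ q' m, (q', m) ∈ M.step q c ∧ p = (some q', m) ∧
        ¬ (c = Cell.leftEnd ∧ m = HeadMove.moveLeft) ∧
        ¬ (c = Cell.rightEnd ∧ m = HeadMove.moveRight))}

theorem rule_det (M : TwoWayNFA α σ) (hM : M.IsDeterministic) (q : Option σ) (c : Cell α) :
    (rule M q c).Subsingleton := by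
  intro p hp p' hp'
  cases q with
  | none =>
    have h1 : p = (none, HeadMove.moveRight) := hp
    have h2 : p' = (none, HeadMove.moveRight) := hp'
    rw [h1, h2]
  | some q =>
    rcases hp with ⟨h1, h2⟩ | ⟨h1, q1, m1, h2, h3, _, _⟩
    · rcases hp' with ⟨_, h5⟩ | ⟨h4, _⟩
      · rw [h2, h5]
      · exact absurd h1 h4
    · rcases hp' with ⟨h4, _⟩ | ⟨_, q2, m2, h5, h6, _, _⟩
      · exact absurd h4 h1
      · have := hM q c h2 h5
        rw [h3, h6]
        simp only [Prod.mk.injEq] at this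
        rw [this.1, this.2]

/-- one step on a partial tape `T : ℤ → Option (Cell α)`. -/
def ZStep (M : TwoWayNFA α σ) (T : ℤ → Option (Cell α)) (x y : Option σ × ℤ) : Prop :=
  ∃ c m, T x.2 = some c ∧ (y.1, m) ∈ rule M x.1 c ∧ y.2 = x.2 + disp m

/-- the tape of a list of cells, starting at position `0`. -/
def tapeOf (L : List (Cell α)) : ℤ → Option (Cell α) := fun i =>
  if 0 ≤ i then L[i.toNat]? else none

/-- the full list of cells of an input word -/
def fullCells (w : List α) : List (Cell α) :=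
  Cell.leftEnd :: (w.map Cell.letter ++ [Cell.rightEnd])

theorem fullCells_length (w : List α) : (fullCells w).length = w.length + 2 := by
  simp [fullCells]

theorem fullCells_get (w : List α) (i : ℕ) (hi : i ≤ w.length + 1) :
    (fullCells w)[i]? = some (scan w i) := by
  cases i with
  | zero => simp [fullCells, scan]
  | succ i =>
    rcases Nat.lt_or_ge i w.length with h | h
    · rw [scan_succ w i h]
      simp [fullCells, List.getElem?_append, h]
    · have : i = w.length := by omega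
      subst this
      rw [scan_last]
      simp [fullCells]

theorem tapeOf_full (w : List α) (i : ℕ) (hi : i ≤ w.length + 1) :
    tapeOf (fullCells w) (i : ℤ) = some (scan w i) := by
  have : (0 : ℤ) ≤ (i : ℤ) := by omega
  simp only [tapeOf, this, if_true, Int.toNat_natCast]
  exact fullCells_get w i hi

theorem tapeOf_some {L : List (Cell α)} {i : ℤ} {c : Cell α} (h : tapeOf L i = some c) :
    0 ≤ i ∧ i.toNat < L.length ∧ L[i.toNat]? = some c := by
  unfold tapeOf at h
  split_ifs at h with h0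
  refine ⟨h0, ?_, h⟩
  rw [List.getElem?_eq_some_iff] at h
  exact h.1

theorem zrun_none (M : TwoWayNFA α σ) (w : List α) (k : ℕ) :
    ∀ i : ℕ, i + k = w.length + 2 →
    Relation.ReflTransGen (ZStep M (tapeOf (fullCells w))) (none, (i : ℤ))
      (none, ((w.length + 2 : ℕ) : ℤ)) := by
  induction k with
  | zero =>
    intro i hi
    have : i = w.length + 2 := by omega
    rw [this]
  | succ k ih =>
    intro i hi
    refine Relation.ReflTransGen.head ?_ (ih (i + 1) (by omega))
    refine ⟨scan w i, HeadMove.moveRight, tapeOf_full w i (by omega), ?_, ?_⟩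
    · show _ ∈ rule M none _
      exact rfl
    · simp [disp]

theorem accepts_iff_zrun (M : TwoWayNFA α σ) (w : List α) :
    M.Accepts w ↔ Relation.ReflTransGen (ZStep M (tapeOf (fullCells w))) (some M.start, 0)
      (none, ((w.length + 2 : ℕ) : ℤ)) := by
  constructor
  · rintro ⟨c, hr, hc⟩
    have key : ∀ x : σ × ℕ, Relation.ReflTransGen (M.Step w) x c → x.2 ≤ w.length + 1 →
        Relation.ReflTransGen (ZStep M (tapeOf (fullCells w))) (some x.1, (x.2 : ℤ))
          (none, ((w.length + 2 : ℕ) : ℤ)) := by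
      have acc : ∀ x : σ × ℕ, x.1 ∈ M.accept → x.2 ≤ w.length + 1 →
          Relation.ReflTransGen (ZStep M (tapeOf (fullCells w))) (some x.1, (x.2 : ℤ))
            (none, ((w.length + 2 : ℕ) : ℤ)) := by
        intro x hx hle
        refine Relation.ReflTransGen.head (b := (none, ((x.2 + 1 : ℕ) : ℤ))) ?_
          (zrun_none M w (w.length + 2 - (x.2 + 1)) (x.2 + 1) (by omega))
        refine ⟨scan w x.2, HeadMove.moveRight, tapeOf_full w x.2 hle, ?_, ?_⟩
        · exact Or.inl ⟨hx, rfl⟩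
        · simp [disp]
      intro x hx
      induction hx using Relation.ReflTransGen.head_induction_on with
      | refl => exact acc c hc
      | @head x y hxy _ ih =>
        intro hle
        by_cases hxa : x.1 ∈ M.accept
        · exact acc x hxa hle
        obtain ⟨m, hm, hpos⟩ := hxy
        cases m with
        | moveLeft =>
          have h0 : x.2 ≠ 0 := by
            intro h0
            simp [movePos, h0] at hpos
          simp only [movePos, h0, if_false, Option.some.injEq] at hpos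
          refine Relation.ReflTransGen.head ?_ (ih (by omega))
          refine ⟨scan w x.2, HeadMove.moveLeft, tapeOf_full w x.2 hle, ?_, ?_⟩
          · refine Or.inr ⟨hxa, y.1, HeadMove.moveLeft, hm, rfl, ?_, ?_⟩
            · rintro ⟨hs, _⟩
              have : 1 ≤ x.2 := by omega
              obtain ⟨j, hj⟩ : ∃ j, x.2 = j + 1 := ⟨x.2 - 1, by omega⟩
              rw [hj] at hs
              rcases Nat.lt_or_ge j w.length with h | h
              · rw [scan_succ w j h] at hs
                cases hs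
              · have : j = w.length := by omega
                rw [this, scan_last] at hs
                cases hs
            · rintro ⟨_, h2⟩
              cases h2
          · simp only [disp]
            omega
        | stay =>
          simp only [movePos, Option.some.injEq] at hpos
          refine Relation.ReflTransGen.head ?_ (ih (by omega))
          refine ⟨scan w x.2, HeadMove.stay, tapeOf_full w x.2 hle, ?_, ?_⟩
          · refine Or.inr ⟨hxa, y.1, HeadMove.stay, hm, rfl, ?_, ?_⟩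
            · rintro ⟨_, h2⟩
              cases h2
            · rintro ⟨_, h2⟩
              cases h2
          · simp only [disp]
            omega
        | moveRight =>
          have h0 : ¬ (w.length + 1 ≤ x.2) := by
            intro h0
            simp [movePos, h0] at hpos
          simp only [movePos, h0, if_false, Option.some.injEq] at hpos
          refine Relation.ReflTransGen.head ?_ (ih (by omega))
          refine ⟨scan w x.2, HeadMove.moveRight, tapeOf_full w x.2 hle, ?_, ?_⟩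
          · refine Or.inr ⟨hxa, y.1, HeadMove.moveRight, hm, rfl, ?_, ?_⟩
            · rintro ⟨_, h2⟩
              cases h2
            · rintro ⟨hs, _⟩
              cases hx2 : x.2 with
              | zero =>
                rw [hx2, scan_zero] at hs
                cases hs
              | succ j =>
                rw [hx2, scan_succ w j (by omega)] at hs
                cases hs
          · simp only [disp]
            omega
    have := key (M.start, 0) hr (Nat.zero_le _)
    simpa using this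
  · intro hr
    have key : ∀ x : Option σ × ℤ, Relation.ReflTransGen (ZStep M (tapeOf (fullCells w))) x
        (none, ((w.length + 2 : ℕ) : ℤ)) → ∀ q, x.1 = some q →
        ∃ c : σ × ℕ, Relation.ReflTransGen (M.Step w) (q, x.2.toNat) c ∧ c.1 ∈ M.accept := by
      intro x hx
      induction hx using Relation.ReflTransGen.head_induction_on with
      | refl =>
        intro q hq
        cases hq
      | @head x y hxy _ ih =>
        intro q hq
        obtain ⟨c, m, hc, hm, hy⟩ := hxy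
        rw [hq] at hm
        rcases hm with ⟨h1, _⟩ | ⟨h1, q', m', h2, h3, h4, h5⟩
        · exact ⟨_, Relation.ReflTransGen.refl, h1⟩
        · have h3a : y.1 = some q' := congrArg Prod.fst h3
          have h3b : m = m' := congrArg Prod.snd h3
          subst h3b
          obtain ⟨d, hd, hda⟩ := ih q' h3a
          refine ⟨d, Relation.ReflTransGen.head ?_ hd, hda⟩
          obtain ⟨h6, h7, h8⟩ := tapeOf_some hc
          rw [fullCells_length] at h7
          have h9 : scan w x.2.toNat = c := by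
            have := fullCells_get w x.2.toNat (by omega)
            rw [this] at h8
            exact Option.some.inj h8
          refine ⟨m, ?_, ?_⟩
          · show (q', m) ∈ M.step q (scan w x.2.toNat)
            rw [h9]
            exact h2
          · show movePos w.length x.2.toNat m = some y.2.toNat
            cases m with
            | moveLeft =>
              have h0 : x.2.toNat ≠ 0 := by
                intro h0
                rw [h0, scan_zero] at h9
                exact h4 ⟨h9.symm, rfl⟩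
              simp only [movePos, h0, if_false, Option.some.injEq]
              simp only [disp] at hy
              omega
            | stay =>
              simp only [movePos, Option.some.injEq]
              simp only [disp] at hy
              omega
            | moveRight =>
              have h0 : ¬ (w.length + 1 ≤ x.2.toNat) := by
                intro h0
                have : x.2.toNat = w.length + 1 := by omega
                rw [this, scan_last] at h9
                exact h5 ⟨h9.symm, rfl⟩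
              simp only [movePos, h0, if_false, Option.some.injEq]
              simp only [disp] at hy
              omega
    have := key _ hr M.start rfl
    simpa [TwoWayNFA.Accepts] using this

end Crest.Agent.R294
private theorem rz_c227e24338 : type_of% @_root_.Crest.Agent.R294.disp.eq_1 := @_root_.Crest.Agent.R294.disp.eq_1 -- L19
end

-- ▼ part R294/Bridge
section

/-!
R294: bridge from `TwoWayNFA` to the block calculus.
-/

set_option autoImplicit false

namespace Crest.Agent.R294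

open Crest.TwoWay

universe u v

variable {α : Type u} {σ : Type v}



/-- behaviour of a single cell (does not depend on the entry side) -/
def cellBeh (M : TwoWayNFA α σ) (c : Cell α) : Beh (Option σ) := fun x y =>
  ∃ p, Relation.ReflTransGen (fun a b => (b, HeadMove.stay) ∈ rule M a c) x.2 p ∧
    (y.2, if y.1 = true then HeadMove.moveRight else HeadMove.moveLeft) ∈ rule M p c

/-- letter behaviours -/
def letBeh (M : TwoWayNFA α σ) (a : α) : Beh (Option σ) := cellBeh M (Cell.letter a)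

/-! ### soundness -/

/-- the block `p`, placed at positions `[i, i + n)` of the tape, is realised by runs -/
def Realizes (M : TwoWayNFA α σ) (T : ℤ → Option (Cell α)) (i n : ℤ) (p : Beh (Option σ)) : Prop :=
  ∀ x y, p x y → Relation.ReflTransGen (ZStep M T) (x.2, if x.1 = true then i else i + n - 1)
    (y.2, if y.1 = true then i + n else i - 1)

theorem realizes_one (M : TwoWayNFA α σ) (T : ℤ → Option (Cell α)) (i : ℤ) :
    Realizes M T i 0 one := by
  intro x y hxy
  have : x = y := hxy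
  subst this
  have : (if x.1 = true then i else i + 0 - 1) = (if x.1 = true then i + 0 else i - 1) := by
    split_ifs <;> ring
  rw [this]

theorem realizes_mid {M : TwoWayNFA α σ} {T : ℤ → Option (Cell α)} {i n m : ℤ}
    {p q : Beh (Option σ)} (hp : Realizes M T i n p) (hq : Realizes M T (i + n) m q)
    {x y : DS (Option σ)} (h : Mid p q x y) :
    Relation.ReflTransGen (ZStep M T) (x.2, if x.1 = true then i + n else i + n - 1)
      (y.2, if y.1 = true then i + n + m else i - 1) := by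
  obtain ⟨x', hr, hxy, hs⟩ := h
  have h1 : Relation.ReflTransGen (ZStep M T) (x.2, if x.1 = true then i + n else i + n - 1)
      (x'.2, if x'.1 = true then i + n else i + n - 1) := by
    clear hs hxy
    induction hr with
    | refl => exact Relation.ReflTransGen.refl
    | @tail b c _ hbc ih =>
      refine ih.trans ?_
      obtain ⟨hne, hsel⟩ := hbc
      unfold sel at hsel
      rcases hb : b.1 with _ | _
      · have hc : c.1 = true := by
          rw [hb] at hne
          cases h' : c.1 with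
          | false => exact absurd h'.symm hne
          | true => rfl
        rw [hb] at hsel
        have := hp b c (by simpa using hsel)
        rw [hb, hc] at this
        simpa [hc] using this
      · have hc : c.1 = false := by
          rw [hb] at hne
          cases h' : c.1 with
          | false => rfl
          | true => exact absurd h'.symm hne
        rw [hb] at hsel
        have := hq b c (by simpa using hsel)
        rw [hb, hc] at this
        simpa [hc] using this
  refine h1.trans ?_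
  unfold sel at hs
  rcases hb : x'.1 with _ | _
  · rw [hb] at hs hxy
    have := hp x' y (by simpa using hs)
    rw [hb, ← hxy] at this
    simpa [← hxy] using this
  · rw [hb] at hs hxy
    have := hq x' y (by simpa using hs)
    rw [hb, ← hxy] at this
    simpa [← hxy] using this

theorem realizes_mul {M : TwoWayNFA α σ} {T : ℤ → Option (Cell α)} {i n m : ℤ}
    {p q : Beh (Option σ)} (hp : Realizes M T i n p) (hq : Realizes M T (i + n) m q) :
    Realizes M T i (n + m) (p ⊙ q) := by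
  intro x y hxy
  rcases hxy with ⟨hx, h⟩ | ⟨hx, h⟩
  · rcases h with ⟨hy, h⟩ | ⟨x1, hx1, h1, h2⟩
    · have := hp x y h
      rw [hx, hy] at this ⊢
      simpa using this
    · have h3 := hp x x1 h1
      have h4 := realizes_mid hp hq h2
      rw [hx1] at h3 h4
      rw [hx] at h3 ⊢
      have h5 : i + (n + m) = i + n + m := by ring
      rw [h5]
      simp only [if_true] at h3 h4 ⊢
      exact h3.trans h4
  · rcases h with ⟨hy, h⟩ | ⟨x1, hx1, h1, h2⟩
    · have := hq x y h
      rw [hx, hy] at this ⊢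
      have h5 : i + (n + m) = i + n + m := by ring
      rw [h5]
      simpa using this
    · have h3 := hq x x1 h1
      have h4 := realizes_mid hp hq h2
      rw [hx1] at h3 h4
      rw [hx] at h3 ⊢
      have h5 : i + (n + m) = i + n + m := by ring
      rw [h5]
      simp only [Bool.false_eq_true, if_false] at h3 h4 ⊢
      exact h3.trans h4

theorem realizes_cell (M : TwoWayNFA α σ) (T : ℤ → Option (Cell α)) (i : ℤ) (c : Cell α)
    (hc : T i = some c) : Realizes M T i 1 (cellBeh M c) := by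
  intro x y hxy
  obtain ⟨p, hp, hy⟩ := hxy
  have h0 : (if x.1 = true then i else i + 1 - 1) = i := by split_ifs <;> ring
  rw [h0]
  have h1 : Relation.ReflTransGen (ZStep M T) (x.2, i) (p, i) := by
    clear hy
    induction hp with
    | refl => exact Relation.ReflTransGen.refl
    | @tail b d _ hbd ih =>
      refine ih.tail ?_
      exact ⟨c, HeadMove.stay, hc, hbd, by simp [disp]⟩
  refine h1.tail ?_
  refine ⟨c, _, hc, hy, ?_⟩
  rcases hb : y.1 with _ | _
  · simp [disp]; ring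
  · simp [disp]

theorem realizes_wd (M : TwoWayNFA α σ) (T : ℤ → Option (Cell α)) (L : List (Cell α)) :
    ∀ i : ℤ, (∀ k : ℕ, ∀ c, L[k]? = some c → T (i + k) = some c) →
      Realizes M T i L.length (wd (cellBeh M) L) := by
  induction L with
  | nil => intro i _; exact realizes_one M T i
  | cons d L ih =>
    intro i hi
    have h1 : Realizes M T i 1 (cellBeh M d) := by
      apply realizes_cell
      have := hi 0 d (by simp)
      simpa using this
    have h2 : Realizes M T (i + 1) L.length (wd (cellBeh M) L) := by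
      apply ih
      intro k c hk
      have := hi (k + 1) c (by simpa using hk)
      rw [← this]
      congr 1
      push_cast
      ring
    have h3 := realizes_mul h1 h2
    have h4 : ((d :: L).length : ℤ) = 1 + L.length := by
      push_cast [List.length_cons]; ring
    rw [h4]
    exact h3

/-! ### completeness -/

theorem mid_replace {p r : Beh (Option σ)} {q q' : Option σ} {y : DS (Option σ)}
    (h : ∀ y, r (true, q') y → r (true, q) y) (hm : Mid p r (true, q') y) :
    Mid p r (true, q) y := by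
  obtain ⟨x', hr, hxy, hs⟩ := hm
  rcases Relation.ReflTransGen.cases_head hr with h0 | ⟨z, hz, hr'⟩
  · rw [← h0] at hs hxy
    refine ⟨(true, q), Relation.ReflTransGen.refl, hxy, ?_⟩
    unfold sel at hs ⊢
    simp only [if_true] at hs ⊢
    exact h _ hs
  · refine ⟨x', Relation.ReflTransGen.head ?_ hr', hxy, hs⟩
    obtain ⟨hne, hsel⟩ := hz
    refine ⟨hne, ?_⟩
    unfold sel at hsel ⊢
    simp only [if_true] at hsel ⊢
    exact h _ hsel


theorem complete_step (M : TwoWayNFA α σ) (L : List (Cell α)) {x : Option σ × ℤ} {N : ℤ}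
    (hN : N = L.length)
    (hx : Relation.ReflTransGen (ZStep M (tapeOf L)) x (none, N)) :
    ∃ u v : List (Cell α), L = u ++ v ∧ (u.length : ℤ) = x.2 ∧
      Mid (wd (cellBeh M) u) (wd (cellBeh M) v) (true, x.1) (true, none) := by
  induction hx using Relation.ReflTransGen.head_induction_on with
  | refl =>
    refine ⟨L, [], by simp, by simp [hN], ?_⟩
    exact Mid.exit rfl (by simp [sel, wd, one])
  | @head x y hxy _ ih =>
    obtain ⟨c, m, hc, hm, hy⟩ := hxy
    obtain ⟨h0, h1, h2⟩ := tapeOf_some hc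
    obtain ⟨u2, v2, hL, hu2, hmid⟩ := ih
    have hget : L[x.2.toNat] = c := by
      rw [List.getElem?_eq_getElem h1] at h2
      exact Option.some.inj h2
    have hsplit : L = L.take x.2.toNat ++ c :: L.drop (x.2.toNat + 1) := by
      conv_lhs => rw [← List.take_append_drop x.2.toNat L, List.drop_eq_getElem_cons h1, hget]
    have htl : (L.take x.2.toNat).length = x.2.toNat := by
      rw [List.length_take]; omega
    refine ⟨L.take x.2.toNat, c :: L.drop (x.2.toNat + 1), hsplit, by rw [htl]; omega, ?_⟩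
    set u := L.take x.2.toNat with hu
    set v' := L.drop (x.2.toNat + 1) with hv'
    have hwd : wd (cellBeh M) (c :: v') = cellBeh M c ⊙ wd (cellBeh M) v' := rfl
    rw [hwd]
    cases m with
    | stay =>
      simp only [disp] at hy
      have hlen : u2.length = u.length := by omega
      have heq : u2 ++ v2 = u ++ c :: v' := by rw [← hL]; exact hsplit
      obtain ⟨rfl, rfl⟩ := List.append_inj heq hlen
      rw [hwd] at hmid
      refine mid_replace ?_ hmid
      intro z hz
      rcases hz with ⟨_, h⟩ | ⟨h, _⟩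
      · left
        refine ⟨rfl, ?_⟩
        have key : ∀ z, cellBeh M c (true, y.1) z → cellBeh M c (true, x.1) z := by
          rintro z ⟨p, hp, hz⟩
          exact ⟨p, Relation.ReflTransGen.head hm hp, hz⟩
        rcases h with ⟨h3, h4⟩ | ⟨x1, h3, h4, h5⟩
        · exact Or.inl ⟨h3, key _ h4⟩
        · exact Or.inr ⟨x1, h3, key _ h4, h5⟩
      · simp at h
    | moveRight =>
      simp only [disp] at hy
      have hlen : u2.length = (u ++ [c]).length := by
        rw [List.length_append, List.length_singleton]; omega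
      have heq : u2 ++ v2 = (u ++ [c]) ++ v' := by
        rw [← hL, List.append_assoc]; exact hsplit
      obtain ⟨rfl, rfl⟩ := List.append_inj heq hlen
      rw [wd_append] at hmid
      have h3 : wd (cellBeh M) [c] = cellBeh M c := mul_one' _
      rw [h3] at hmid
      rw [mid_mul_right]
      right
      refine ⟨(true, y.1), rfl, ?_, hmid⟩
      refine Mid.exit rfl ?_
      show sel _ _ _ _
      unfold sel
      simp only [if_true]
      exact ⟨x.1, Relation.ReflTransGen.refl, by simpa using hm⟩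
    | moveLeft =>
      simp only [disp] at hy
      have hlenu : u.length = u2.length + 1 := by omega
      -- u = u2 ++ [e]
      have heq : u2 ++ v2 = u ++ c :: v' := by rw [← hL]; exact hsplit
      have hu_eq : u = u2 ++ v2.take 1 := by
        have h5 := congrArg (List.take u.length) heq
        rw [List.take_left, hlenu, List.take_append] at h5
        rw [← h5]
        simp
      have hv_eq : v2 = v2.take 1 ++ (c :: v') := by
        have h5 : u2 ++ v2 = u2 ++ (v2.take 1 ++ (c :: v')) := by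
          rw [heq, ← List.append_assoc, ← hu_eq]
        exact List.append_cancel_left h5
      obtain ⟨e, he⟩ : ∃ e, v2.take 1 = [e] := by
        have h5 : (v2.take 1).length = 1 := by
          have := congrArg List.length hu_eq
          rw [List.length_append] at this
          omega
        exact List.length_eq_one_iff.1 h5
      rw [he] at hu_eq hv_eq
      rw [hv_eq] at hmid
      have h3 : wd (cellBeh M) ([e] ++ (c :: v')) = cellBeh M e ⊙ (cellBeh M c ⊙ wd (cellBeh M) v') :=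
        rfl
      rw [h3, mid_mul_right] at hmid
      rcases hmid with ⟨h4, _⟩ | ⟨x1, hx1, h4, h5⟩
      · simp at h4
      rw [hu_eq, wd_append]
      have h6 : wd (cellBeh M) [e] = cellBeh M e := mul_one' _
      rw [h6]
      have s1 : Refl (wd (cellBeh M) u2 ⊙ cellBeh M e) (cellBeh M c ⊙ wd (cellBeh M) v')
          (true, x.1) (false, y.1) := by
        refine ⟨by simp, ?_⟩
        unfold sel
        simp only [if_true]
        left
        refine ⟨rfl, Or.inl ⟨rfl, ?_⟩⟩
        exact ⟨x.1, Relation.ReflTransGen.refl, by simpa using hm⟩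
      have s2 : Refl (wd (cellBeh M) u2 ⊙ cellBeh M e) (cellBeh M c ⊙ wd (cellBeh M) v')
          (false, y.1) x1 := by
        refine ⟨by simp [hx1], ?_⟩
        unfold sel
        simp only [Bool.false_eq_true, if_false]
        right
        refine ⟨rfl, ?_⟩
        obtain ⟨x', hr, hxy, hs⟩ := h4
        rcases Relation.ReflTransGen.cases_head hr with h0 | ⟨z, hz, hr'⟩
        · left
          refine ⟨hx1, ?_⟩
          rw [← h0] at hs
          unfold sel at hs
          have hs' : cellBeh M e (true, y.1) x1 := by simpa using hs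
          exact hs'
        · right
          obtain ⟨hne, hsel⟩ := hz
          have hz1 : z.1 = false := by
            cases h' : z.1 with
            | false => rfl
            | true => exact absurd h'.symm hne
          refine ⟨z, hz1, ?_, ⟨x', hr', hxy, hs⟩⟩
          unfold sel at hsel
          have hs' : cellBeh M e (true, y.1) z := by simpa using hsel
          exact hs'
      exact Mid.cons s1 (Mid.cons s2 h5)

theorem accepts_iff (M : TwoWayNFA α σ) (w : List α) :
    M.Accepts w ↔ wd (cellBeh M) (fullCells w) (true, some M.start) (true, none) := by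
  rw [accepts_iff_zrun]
  constructor
  · intro h
    obtain ⟨u, v, hL, hu, hmid⟩ := complete_step M (fullCells w)
      (by rw [fullCells_length]) h
    have hu0 : u = [] := by
      have : u.length = 0 := by
        have h1 : ((u.length : ℕ) : ℤ) = 0 := hu
        omega
      exact List.length_eq_zero_iff.1 this
    subst hu0
    rw [List.nil_append] at hL
    subst hL
    have h1 : (one ⊙ wd (cellBeh M) (fullCells w)) (true, some M.start) (true, none) := by
      left
      refine ⟨rfl, Or.inr ⟨(true, some M.start), rfl, rfl, hmid⟩⟩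
    rwa [one_mul'] at h1
  · intro h
    have h1 := realizes_wd M (tapeOf (fullCells w)) (fullCells w) 0 (by
      intro k c hk
      simp only [tapeOf, zero_add]
      have : (0 : ℤ) ≤ (k : ℤ) := by omega
      simp only [this, if_true, Int.toNat_natCast]
      exact hk) _ _ h
    rw [fullCells_length] at h1
    simpa using h1

theorem wd_map (M : TwoWayNFA α σ) (w : List α) :
    wd (cellBeh M) (w.map Cell.letter) = wd (letBeh M) w := by
  simp only [wd, List.map_map]
  rfl

theorem accepts_iff' (M : TwoWayNFA α σ) (w : List α) :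
    M.Accepts w ↔ (cellBeh M Cell.leftEnd ⊙ (wd (letBeh M) w ⊙ cellBeh M Cell.rightEnd))
      (true, some M.start) (true, none) := by
  rw [accepts_iff]
  have h1 : wd (cellBeh M) (fullCells w) =
      cellBeh M Cell.leftEnd ⊙ (wd (letBeh M) w ⊙ cellBeh M Cell.rightEnd) := by
    have h2 : wd (cellBeh M) (fullCells w) = cellBeh M Cell.leftEnd ⊙
      wd (cellBeh M) (w.map Cell.letter ++ [Cell.rightEnd]) := rfl
    rw [h2, wd_append, wd_map]
    have h3 : wd (cellBeh M) [Cell.rightEnd] = cellBeh M Cell.rightEnd := mul_one' _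
    rw [h3]
  rw [h1]

/-- acceptance of `u ++ z ++ v` -/
theorem accepts_iff3 (M : TwoWayNFA α σ) (u z v : List α) :
    M.Accepts (u ++ z ++ v) ↔ (cellBeh M Cell.leftEnd ⊙ (wd (letBeh M) u ⊙ wd (letBeh M) z ⊙
      wd (letBeh M) v ⊙ cellBeh M Cell.rightEnd)) (true, some M.start) (true, none) := by
  rw [accepts_iff', wd_append, wd_append]

/-! ### monotonicity: the nondeterministic case -/

theorem separates_nfa {h : ℕ} (B : TwoWayNFA (Let h) σ)
    (hB : B.language = (liveness h)ᶜ) : Separates (letBeh B) := by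
  intro u z X v _ hle hdead
  have h1 : B.Accepts (u ++ z ++ v) := by
    have : u ++ z ++ v ∈ B.language := by rw [hB]; exact hdead
    exact this
  have h2 : B.Accepts (u ++ X ++ v) := by
    rw [accepts_iff3] at h1 ⊢
    refine mul_mono (fun _ _ h => h) ?_ h1
    intro x y
    refine mul_mono ?_ (fun _ _ h => h)
    intro x y
    refine mul_mono ?_ (fun _ _ h => h)
    intro x y
    exact mul_mono (fun _ _ h => h) hle
  have h3 : u ++ X ++ v ∈ B.language := h2
  rw [hB] at h3
  exact h3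

/-! ### determinism -/

/-- functional behaviours -/
def Fun (p : Beh (Option σ)) : Prop := ∀ x y y', p x y → p x y' → y = y'

theorem fun_one : Fun (one : Beh (Option σ)) := by
  intro x y y' h h'
  have h1 : x = y := h
  have h2 : x = y' := h'
  rw [← h1, ← h2]

theorem fun_sel {p q : Beh (Option σ)} (hp : Fun p) (hq : Fun q) {x y y' : DS (Option σ)}
    (h : sel p q x y) (h' : sel p q x y') : y = y' := by
  unfold sel at h h'
  split_ifs at h h' with hx
  · exact hq _ _ _ h h'
  · exact hp _ _ _ h h'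

theorem fun_mid {p q : Beh (Option σ)} (hp : Fun p) (hq : Fun q) {x y y' : DS (Option σ)}
    (h : Mid p q x y) (h' : Mid p q x y') : y = y' := by
  obtain ⟨z, hr, hz, hs⟩ := h
  obtain ⟨z', hr', hz', hs'⟩ := h'
  induction hr using Relation.ReflTransGen.head_induction_on with
  | refl =>
    rcases Relation.ReflTransGen.cases_head hr' with h0 | ⟨t, ht, _⟩
    · subst h0
      exact fun_sel hp hq hs hs'
    · exfalso
      have := fun_sel hp hq hs ht.2
      subst this
      exact ht.1 hz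
  | @head a b hab _ ih =>
    rcases Relation.ReflTransGen.cases_head hr' with h0 | ⟨t, ht, hr''⟩
    · exfalso
      subst h0
      have := fun_sel hp hq hs' hab.2
      subst this
      exact hab.1 hz'
    · have := fun_sel hp hq ht.2 hab.2
      subst this
      exact ih hr''

theorem fun_mul {p q : Beh (Option σ)} (hp : Fun p) (hq : Fun q) : Fun (p ⊙ q) := by
  intro x y y' h h'
  rcases h with ⟨hx, h⟩ | ⟨hx, h⟩
  · rcases h' with ⟨_, h'⟩ | ⟨hx', _⟩
    · rcases h with ⟨h1, h2⟩ | ⟨x1, h1, h2, h3⟩ <;>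
        rcases h' with ⟨h1', h2'⟩ | ⟨x1', h1', h2', h3'⟩
      · exact hp _ _ _ h2 h2'
      · have := hp _ _ _ h2 h2'
        subst this
        rw [h1] at h1'
        cases h1'
      · have := hp _ _ _ h2 h2'
        subst this
        rw [h1] at h1'
        cases h1'
      · have := hp _ _ _ h2 h2'
        subst this
        exact fun_mid hp hq h3 h3'
    · rw [hx] at hx'
      cases hx'
  · rcases h' with ⟨hx', _⟩ | ⟨_, h'⟩
    · rw [hx] at hx'
      cases hx'
    · rcases h with ⟨h1, h2⟩ | ⟨x1, h1, h2, h3⟩ <;>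
        rcases h' with ⟨h1', h2'⟩ | ⟨x1', h1', h2', h3'⟩
      · exact hq _ _ _ h2 h2'
      · have := hq _ _ _ h2 h2'
        subst this
        rw [h1] at h1'
        cases h1'
      · have := hq _ _ _ h2 h2'
        subst this
        rw [h1] at h1'
        cases h1'
      · have := hq _ _ _ h2 h2'
        subst this
        exact fun_mid hp hq h3 h3'

theorem fun_cell (M : TwoWayNFA α σ) (hM : M.IsDeterministic) (c : Cell α) :
    Fun (cellBeh M c) := by
  intro x y y' h h'
  obtain ⟨p, hp, hy⟩ := h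
  obtain ⟨p', hp', hy'⟩ := h'
  have key : ∀ a : Option σ, Relation.ReflTransGen (fun a b => (b, HeadMove.stay) ∈ rule M a c) a p →
      Relation.ReflTransGen (fun a b => (b, HeadMove.stay) ∈ rule M a c) a p' → p = p' := by
    intro a ha ha'
    induction ha using Relation.ReflTransGen.head_induction_on with
    | refl =>
      rcases Relation.ReflTransGen.cases_head ha' with h0 | ⟨t, ht, _⟩
      · exact h0
      · exfalso
        have := rule_det M hM p c hy ht
        simp only [Prod.mk.injEq] at this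
        have h2 := this.2
        split_ifs at h2
    | @head a b hab _ ih =>
      rcases Relation.ReflTransGen.cases_head ha' with h0 | ⟨t, ht, hr''⟩
      · exfalso
        subst h0
        have := rule_det M hM _ c hy' hab
        simp only [Prod.mk.injEq] at this
        have h2 := this.2
        split_ifs at h2
      · have := rule_det M hM _ c ht hab
        simp only [Prod.mk.injEq, and_true] at this
        subst this
        exact ih hr''
  have hpp := key _ hp hp'
  subst hpp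
  have h1 := rule_det M hM _ c hy hy'
  simp only [Prod.mk.injEq] at h1
  obtain ⟨h1, h2⟩ := h1
  apply Prod.ext
  · rcases hb : y.1 with _ | _ <;> rcases hb' : y'.1 with _ | _ <;> simp [hb, hb'] at h2 ⊢
  · exact h1

theorem fun_wd (M : TwoWayNFA α σ) (hM : M.IsDeterministic) (w : List α) :
    Fun (wd (letBeh M) w) := by
  induction w with
  | nil => exact fun_one
  | cons a w ih => exact fun_mul (fun_cell M hM _) ih

theorem separates_dfa {h : ℕ} (D : TwoWayNFA (Let h) σ) (hD : D.IsDeterministic)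
    (hL : D.language = liveness h) : Separates (letBeh D) := by
  intro u z X v hX hle hdead hlive
  have heq : wd (letBeh D) X = wd (letBeh D) z := by
    funext x y
    apply propext
    constructor
    · intro hxy
      have hdom : ∃ y', wd (letBeh D) z x y' := by
        have h1 := hxy
        rw [← hX] at h1
        rcases h1 with ⟨hx, h1⟩ | ⟨hx, h1⟩
        · rcases h1 with ⟨_, h2⟩ | ⟨x1, _, h2, _⟩
          · rcases h2 with ⟨_, h3⟩ | ⟨hx', _⟩
            · rcases h3 with ⟨_, h4⟩ | ⟨x2, _, h4, _⟩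
              · exact ⟨_, h4⟩
              · exact ⟨_, h4⟩
            · rw [hx] at hx'; cases hx'
          · rcases h2 with ⟨_, h3⟩ | ⟨hx', _⟩
            · rcases h3 with ⟨_, h4⟩ | ⟨x2, _, h4, _⟩
              · exact ⟨_, h4⟩
              · exact ⟨_, h4⟩
            · rw [hx] at hx'; cases hx'
        · rcases h1 with ⟨_, h2⟩ | ⟨x1, _, h2, _⟩
          · exact ⟨_, h2⟩
          · exact ⟨_, h2⟩
      obtain ⟨y', hy'⟩ := hdom
      have := fun_wd D hD X _ _ _ hxy (hle _ _ hy')
      rw [this]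
      exact hy'
    · exact hle x y
  have h1 : D.Accepts (u ++ X ++ v) := by
    have : u ++ X ++ v ∈ D.language := by rw [hL]; exact hlive
    exact this
  rw [accepts_iff3, heq, ← accepts_iff3] at h1
  have h2 : u ++ z ++ v ∈ D.language := h1
  rw [hL] at h2
  exact hdead h2

/-- bridge for 2NFAs recognising the dead words -/
theorem bridge_nfa {h : ℕ} {σ : Type*} (B : Crest.TwoWay.TwoWayNFA (Let h) σ)
    (hB : B.language = (Crest.TwoWay.liveness h)ᶜ) :
    ∃ c : Let h → Beh (Option σ), Separates c := ⟨letBeh B, separates_nfa B hB⟩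

/-- bridge for 2DFAs recognising the live words -/
theorem bridge_dfa {h : ℕ} {σ : Type*} (D : Crest.TwoWay.TwoWayNFA (Let h) σ)
    (hD : D.IsDeterministic) (hL : D.language = Crest.TwoWay.liveness h) :
    ∃ c : Let h → Beh (Option σ), Separates c := ⟨letBeh D, separates_dfa D hD hL⟩

end Crest.Agent.R294
end

-- ▼ part R294/Final

/-!
R294: final arithmetic and assembly, over `core` (Main) and the bridges.
-/

set_option autoImplicit false

namespace Crest.Agent.R294

open Crest.TwoWay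

universe u



theorem final_S0444 (n : ℕ) (hn : 4 ≤ n) (σ : Type u) [Fintype σ]
    (B : TwoWayNFA (Fin (n - 2) → Fin (n - 2) → Bool) σ)
    (hB : B.language = (liveness (n - 2))ᶜ) :
    2 ^ ((n - 4) / 127) ≤ 2 * (Fintype.card σ + 1) := by
  obtain ⟨c, hc⟩ := bridge_nfa (h := n - 2) B hB
  have h1 := core c hc 63 ((n - 4) / 127) (by
    have := Nat.div_mul_le_self (n - 4) 127
    omega)
  rw [Fintype.card_option] at h1
  set k := (n - 4) / 127 with hk
  have h2 : 16 ^ k ≤ 63 ^ k := Nat.pow_le_pow_left (by norm_num) k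
  have h3 : (16 : ℕ) ^ k = 8 ^ k * 2 ^ k := by
    rw [← Nat.mul_pow]
  have h4 : 8 ^ k * 2 ^ k ≤ 8 ^ k * (2 * (Fintype.card σ + 1)) := by
    rw [← h3]; exact h2.trans h1
  exact Nat.le_of_mul_le_mul_left h4 (by positivity)

theorem final_S0445 (h : ℕ) (hh : 2 ≤ h) (σ : Type u) [Fintype σ]
    (D : TwoWayNFA (Fin h → Fin h → Bool) σ) (hD : D.IsDeterministic)
    (hL : D.language = liveness h) :
    2 ^ ((h - 2) / 31) ≤ 4 * (Fintype.card σ + 1) ^ 2 := by
  obtain ⟨c, hc⟩ := bridge_dfa (h := h) D hD hL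
  have h1 := core c hc 15 ((h - 2) / 31) (by
    have := Nat.div_mul_le_self (h - 2) 31
    omega)
  rw [Fintype.card_option] at h1
  set k := (h - 2) / 31 with hk
  have h2 : 15 ^ k * 15 ^ k ≤ (8 ^ k * (2 * (Fintype.card σ + 1))) *
      (8 ^ k * (2 * (Fintype.card σ + 1))) := Nat.mul_le_mul h1 h1
  have h3 : (15 : ℕ) ^ k * 15 ^ k = 225 ^ k := by
    rw [← Nat.mul_pow]
  have h4 : (128 : ℕ) ^ k ≤ 225 ^ k := Nat.pow_le_pow_left (by norm_num) k
  have h5 : (128 : ℕ) ^ k = (8 ^ k * 8 ^ k) * 2 ^ k := by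
    rw [← Nat.mul_pow, ← Nat.mul_pow]
  have h6 : (8 ^ k * 8 ^ k) * 2 ^ k ≤ (8 ^ k * 8 ^ k) * (4 * (Fintype.card σ + 1) ^ 2) := by
    calc (8 ^ k * 8 ^ k) * 2 ^ k = 128 ^ k := h5.symm
      _ ≤ 225 ^ k := h4
      _ = 15 ^ k * 15 ^ k := h3.symm
      _ ≤ _ := h2
      _ = (8 ^ k * 8 ^ k) * (4 * (Fintype.card σ + 1) ^ 2) := by ring
  exact Nat.le_of_mul_le_mul_left h6 (by positivity)

end Crest.Agent.R294
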